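import Claimed.Agent.R257.PK1.WFin
import Claimed.Agent.R257.Tree.Defs

/-!
# R257 / PK1 / WTree : the entry contracts `Tree.WtAt`, `Tree.L2At` of INST (helper155, `R257/Tree/Defs.lean`) FROM `p:weighted`      (helper122)

* `pkw_wtAt : 2 ≤ p → p k ≤ 2(k+2) → 0 ≤ A → A ≤ M → k + 1 < M → Tree.WtAt k p A M`
* `pkw_l2At : k + 1 < M → Tree.L2At k M`
The families of INST (index set `Λ × ℤ^{k+1}`, native centres = lattice points, at most `Cm` labels in a ball of radius `1/N`) are families of the class `⟨ρ, M, Cc, 5^(k+1) ⌊Cm⌋₊⟩` (`pkw_tree_in`).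
-/

set_option autoImplicit false
open MeasureTheory Set Metric
open scoped ENNReal NNReal
open Claimed.Agent.R257.Tree

namespace Claimed.Agent.R257

noncomputable section

variable {k : ℕ}

/-- distinct lattice points are `1`-separated. -/
theorem pkw_lat_sep {m m' : Lat k} (h : m ≠ m') : 1 ≤ ‖lat m - lat m'‖ := by
  by_cases h2 : m.2 = m'.2
  · have h1 : m.1 ≠ m'.1 := fun h1 => h (Prod.ext h1 h2)
    obtain ⟨i, hi⟩ := Function.ne_iff.1 h1
    have hz : (1 : ℝ) ≤ |((m.1 i - m'.1 i : ℤ) : ℝ)| := by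
      rw [← Int.cast_abs]
      exact_mod_cast Int.one_le_abs (sub_ne_zero.2 hi)
    refine le_trans ?_ (norm_fst_le _)
    refine hz.trans ?_
    have := PiLp.norm_apply_le ((lat m - lat m').1) i
    simpa [lat] using this
  · have hz : (1 : ℝ) ≤ |((m.2 - m'.2 : ℤ) : ℝ)| := by
      rw [← Int.cast_abs]
      exact_mod_cast Int.one_le_abs (sub_ne_zero.2 h2)
    refine le_trans ?_ (norm_snd_le _)
    simpa [lat] using hz

theorem pkw_lat_inj : Function.Injective (lat : Lat k → ST k) := by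
  intro m m' h
  by_contra hne
  have := pkw_lat_sep hne
  rw [h, sub_self, norm_zero] at this
  linarith

/-- at most `5^(k+1)` lattice points in a unit ball. -/
theorem pkw_lat_card (c : ST k) (t : Finset (Lat k)) (h : ∀ m ∈ t, ‖lat m - c‖ ≤ 1) : t.card ≤ 5 ^ (k + 1) := by
  classical
  have hsep : USep (t.image lat) := by
    intro z hz z' hz' hne
    obtain ⟨m, _, rfl⟩ := Finset.mem_image.1 hz
    obtain ⟨m', _, rfl⟩ := Finset.mem_image.1 hz'
    exact pkw_lat_sep fun e => hne (by rw [e])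
  have h1 := pkw_usep_card hsep c
  have e : (t.image lat).filter (fun z => ‖z - c‖ ≤ 1) = t.image lat := by
    refine Finset.filter_true_of_mem fun z hz => ?_
    obtain ⟨m, hm, rfl⟩ := Finset.mem_image.1 hz
    exact h m hm
  have h2 : ((t.image lat).filter (fun z => ‖z - c‖ ≤ 1)).card ≤ 5 ^ (k + 1) := by convert h1
  rw [e, Finset.card_image_of_injective _ pkw_lat_inj] at h2
  exact h2

open scoped Classical in
/-- **the families of INST belong to the packet class.** -/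
theorem pkw_tree_in {ρ Cc Cm M N : ℝ} (hN : 1 ≤ N) {Λ : Type} [Fintype Λ] (fr : Λ → E k)
    (hfr : ∀ ξ : E k, ((Finset.univ.filter fun v => ‖fr v - ξ‖ ≤ N⁻¹).card : ℝ) ≤ Cm)
    (s : Finset (Λ × Lat k)) (a : Λ × Lat k → ℝ) (f : Λ × Lat k → ST k → ℂ) (hc : ∀ T ∈ s, ‖fr T.1‖ ≤ Cc)
    (hpk : ∀ T ∈ s, IsPk ρ M N (fr T.1) (lat T.2) (a T) (f T)) :
    ∃ F : Λ × Lat k → ST k → ℂ, (⟨N, fun T => fr T.1, fun T => lat T.2, F⟩ : PFam k (Λ × Lat k)).In s ⟨ρ, M, Cc, 5 ^ (k + 1) * ⌊Cm⌋₊⟩ a ∧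
      ∀ T ∈ s, ∀ z, (⟨N, fun T => fr T.1, fun T => lat T.2, F⟩ : PFam k (Λ × Lat k)).pk T z = f T z := by
  have hN0 : 0 < N := by linarith
  refine ⟨fun T => if h : T ∈ s then (hpk T h).choose else 0, ⟨hN, fun T hT => ?_, fun T hT X => ?_, hc, ?_⟩, fun T hT z => ?_⟩
  · simp only [dif_pos hT]
    exact (hpk T hT).choose_spec.1
  · simp only [dif_pos hT]
    exact (hpk T hT).choose_spec.2.1 X
  · intro ξ y τ t ht hh
    simp only at hh ⊢
    have hfib : ∀ v ∈ t.image Prod.fst, (t.filter fun T => T.1 = v).card ≤ 5 ^ (k + 1) := by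
      intro v _
      have hinj : Set.InjOn (Prod.snd : Λ × Lat k → Lat k) (t.filter fun T => T.1 = v) := by
        intro T hT T' hT' e
        have h1 := (Finset.mem_filter.1 hT).2
        have h2 := (Finset.mem_filter.1 hT').2
        exact Prod.ext (h1.trans h2.symm) e
      rw [← Finset.card_image_of_injOn hinj]
      refine pkw_lat_card (y - (2 * τ * N) • fr v, τ) _ fun m hm => ?_
      obtain ⟨T, hT, rfl⟩ := Finset.mem_image.1 hm
      obtain ⟨hTt, rfl⟩ := Finset.mem_filter.1 hT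
      obtain ⟨-, h2, h3⟩ := hh T hTt
      rw [Prod.norm_def]
      refine max_le ?_ ?_
      · have e : (lat T.2 - (y - (2 * τ * N) • fr T.1, τ)).1 = (lat T.2).1 + (2 * τ * N) • fr T.1 - y := by
          simp only [Prod.fst_sub]
          abel
        rw [e]
        exact h3
      · simpa [Real.norm_eq_abs] using h2
    have himg : (t.image Prod.fst).card ≤ ⌊Cm⌋₊ := by
      refine Nat.le_floor ?_
      refine le_trans ?_ (hfr (N⁻¹ • ξ))
      have : t.image Prod.fst ⊆ Finset.univ.filter fun v => ‖fr v - N⁻¹ • ξ‖ ≤ N⁻¹ := by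
        intro v hv
        obtain ⟨T, hT, rfl⟩ := Finset.mem_image.1 hv
        refine Finset.mem_filter.2 ⟨Finset.mem_univ _, ?_⟩
        have h1 := (hh T hT).1
        have e : fr T.1 - N⁻¹ • ξ = N⁻¹ • (N • fr T.1 - ξ) := by
          rw [smul_sub, smul_smul, inv_mul_cancel₀ hN0.ne', one_smul]
        rw [e, norm_smul, Real.norm_of_nonneg (inv_nonneg.2 hN0.le)]
        calc N⁻¹ * ‖N • fr T.1 - ξ‖ ≤ N⁻¹ * 1 := by gcongr
          _ = N⁻¹ := mul_one _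
      exact_mod_cast Finset.card_le_card this
    calc t.card ≤ 5 ^ (k + 1) * (t.image Prod.fst).card := Finset.card_le_mul_card_image t _ hfib
      _ ≤ 5 ^ (k + 1) * ⌊Cm⌋₊ := Nat.mul_le_mul_left _ himg
  · unfold PFam.pk
    simp only [dif_pos hT]
    exact ((hpk T hT).choose_spec.2.2 z).symm

/-- **the contract `WtAt` of INST** (`p:weighted`, discrete unit-supremum form). -/
theorem pkw_wtAt {p A M : ℝ} (hp : 2 ≤ p) (hpq : p * (k : ℝ) ≤ 2 * ((k : ℝ) + 2)) (hA : 0 ≤ A) (hAM : A ≤ M) (hM : (k : ℝ) + 1 < M) :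
    WtAt k p A M := by
  intro ρ Cc Cm ε hε
  obtain ⟨Cst, hCst, hle⟩ := pkw_weighted_main (k := k) ⟨ρ, M, Cc, 5 ^ (k + 1) * ⌊Cm⌋₊⟩ 0 (r := 0) hp hpq hA hAM hM le_rfl hε
  refine ⟨max 1 (Cst * (5 ^ (k + 1) : ℕ)), le_max_left _ _, ?_⟩
  intro N hN Λ _ fr hfr s a b f hc hpk hb hab Y hY
  have hN0 : 0 < N := by linarith
  obtain ⟨F, hIn, hf⟩ := pkw_tree_in hN fr hfr s a f hc hpk
  have hab' : ∀ T ∈ s, b T = 0 → a T = 0 := fun T hT h0 => by_contra fun ha => (hab T hT ha).ne' h0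
  have key := (hle N hN).usep (mul_nonneg hCst (Real.rpow_nonneg hN0.le _)) le_rfl rfl hIn (pkw_near_top _ s le_rfl hN0.le) hb hab' Y hY id
    (by simp)
  have hS : 0 ≤ ∑ T ∈ s, a T ^ p * b T ^ (2 - p) := Finset.sum_nonneg fun T hT =>
    mul_nonneg (Real.rpow_nonneg (hIn.amp_nonneg hT) _) (Real.rpow_nonneg (hb T hT) _)
  have eN : N ^ ((k : ℝ) + 2) = N ^ (k + 2) := by
    rw [← Real.rpow_natCast]
    push_cast
    rfl
  calc ∑ z ∈ Y, (∑ T ∈ s, b T ^ 2 * pw A N (fr T.1) (lat T.2) z) ^ ((2 - p) / 2) * ‖∑ T ∈ s, f T z‖ ^ p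
      = ∑ z ∈ Y, (⟨N, fun T => fr T.1, fun T => lat T.2, F⟩ : PFam k (Λ × Lat k)).sq A s b (id z) ^ (1 - p / 2)
          * ‖(⟨N, fun T => fr T.1, fun T => lat T.2, F⟩ : PFam k (Λ × Lat k)).fld s z‖ ^ p := by
        refine Finset.sum_congr rfl fun z _ => ?_
        have e1 : (2 - p) / 2 = 1 - p / 2 := by ring
        have e2 : (⟨N, fun T => fr T.1, fun T => lat T.2, F⟩ : PFam k (Λ × Lat k)).fld s z = ∑ T ∈ s, f T z :=
          Finset.sum_congr rfl fun T hT => hf T hT z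
        rw [e1, e2]
        rfl
    _ ≤ Cst * N ^ ε * (5 ^ (k + 1) : ℕ) * (N ^ ((k : ℝ) + 2) * ∑ T ∈ s, a T ^ p * b T ^ (2 - p)) := key
    _ = Cst * (5 ^ (k + 1) : ℕ) * N ^ ε * N ^ (k + 2) * ∑ T ∈ s, a T ^ p * b T ^ (2 - p) := by
        rw [eN]
        ring
    _ ≤ max 1 (Cst * (5 ^ (k + 1) : ℕ)) * N ^ ε * N ^ (k + 2) * ∑ T ∈ s, a T ^ p * b T ^ (2 - p) := by
        gcongr
        exact le_max_right _ _

/-- **the contract `L2At` of INST** (the lossless `p = 2` form). -/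
theorem pkw_l2At {M : ℝ} (hM : (k : ℝ) + 1 < M) : L2At k M := by
  intro ρ Cc Cm
  obtain ⟨Cst, hCst, hle⟩ := pkw_two (k := k) ⊤ ⟨ρ, M, Cc, 5 ^ (k + 1) * ⌊Cm⌋₊⟩ 0 (P := 0) (r := 0) le_rfl hM le_rfl
  refine ⟨max 1 (Cst * (5 ^ (k + 1) : ℕ)), le_max_left _ _, ?_⟩
  intro N hN Λ _ fr hfr s a f hc hpk Y hY
  have hN0 : 0 < N := by linarith
  obtain ⟨F, hIn, hf⟩ := pkw_tree_in hN fr hfr s a f hc hpk
  have key := (hle N hN).usep (b := fun _ => 1) hCst le_rfl rfl hIn (pkw_near_top _ s le_rfl hN0.le) (fun _ _ => zero_le_one)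
    (fun _ _ h => absurd h one_ne_zero) Y hY id (by simp)
  have hS : 0 ≤ ∑ T ∈ s, a T ^ 2 := Finset.sum_nonneg fun T _ => sq_nonneg _
  have eN : N ^ ((k : ℝ) + 2) = N ^ (k + 2) := by
    rw [← Real.rpow_natCast]
    push_cast
    rfl
  calc ∑ z ∈ Y, ‖∑ T ∈ s, f T z‖ ^ 2
      = ∑ z ∈ Y, (⟨N, fun T => fr T.1, fun T => lat T.2, F⟩ : PFam k (Λ × Lat k)).sq 0 s (fun _ => 1) (id z) ^ (1 - (2 : ℝ) / 2)
          * ‖(⟨N, fun T => fr T.1, fun T => lat T.2, F⟩ : PFam k (Λ × Lat k)).fld s z‖ ^ (2 : ℝ) := by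
        refine Finset.sum_congr rfl fun z _ => ?_
        have e1 : 1 - (2 : ℝ) / 2 = 0 := by norm_num
        have e2 : (⟨N, fun T => fr T.1, fun T => lat T.2, F⟩ : PFam k (Λ × Lat k)).fld s z = ∑ T ∈ s, f T z :=
          Finset.sum_congr rfl fun T hT => hf T hT z
        rw [e1, e2, Real.rpow_zero, one_mul, Real.rpow_two]
    _ ≤ Cst * (5 ^ (k + 1) : ℕ) * (N ^ ((k : ℝ) + 2) * ∑ T ∈ s, a T ^ (2 : ℝ) * (1 : ℝ) ^ (2 - (2 : ℝ))) := key
    _ = Cst * (5 ^ (k + 1) : ℕ) * N ^ (k + 2) * ∑ T ∈ s, a T ^ 2 := by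
        rw [eN]
        simp only [Real.one_rpow, mul_one, Real.rpow_two]
        ring
    _ ≤ max 1 (Cst * (5 ^ (k + 1) : ℕ)) * N ^ (k + 2) * ∑ T ∈ s, a T ^ 2 := by
        gcongr
        exact le_max_right _ _

end

end Claimed.Agent.R257
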