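import Claimed.Agent.Lib.BD.Resc

/-!
# R257 / PK1 / W : THE WEIGHTED PACKET ESTIMATE `p:weighted` DIRECTLY FROM `ℓ²` DECOUPLING        (architect helper136)

This folder REPLACES the units U3-U7 of report 849 (`p:bd-local`, `p:buffered-refined`, sampling atoms, the four negligible classes, `α/β` classes, `κ`-plane slicing).
Language: `Lib/BD/Defs.lean` (abstract `V`, `k = finrank V`, space-time `V × ℝ`, paraboloid `τ = +|ξ|²`, trajectories `x + 2 t v = const`, no `2π`).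

## Statement (H `p:weighted`)
`∫ B(z)^(2-p) |∑_T f_T(z)|^p dz ≤ C_ε N^ε N^(k+2) ∑_T s_T^p b_T^(2-p)`,   `B² = ∑_T b_T² w_T`,   `w_T = (1 + d_T)^(-P)`,   `|f_T| ≤ s_T (1 + d_T)^(-P')`.
Here: `m T = b_T²` (square weights, `0 < m T < ∞`), `a T = s_T`, `pkbEnv P N v c z = (1 + |X_{N,v}(z) - c|)^(-P)`, `X_{N,v} = Lam v N⁻¹ N⁻²` the native coordinates, `c` the native centre.

## Proof (one page)
0. SELF-SIMILARITY.  If `|v_T - u| ≤ σ` for all `T`, put `z' = Lam u σ σ² z`, `v' = (v - u)/σ`, `N' = σ N`.  Then `X_{N',v'}(z') = X_{N,v}(z)` EXACTLY, `f_T(z) = e^{i..} g_T(z')` with a phase independent of `T` (`FS.unpar`),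
   caps `cap v (C/N) (C/N²)` become `cap v' (C/N') (C/N'²)`, the slot multiplicity and the plane condition are invariant, `dz = σ^(-(k+2)) dz'`: a family of scale `N` in a `σ`-cluster IS a family of scale `σ N` with the same constants (`PkbFam.resc`, `PkbLe.cluster`).
1. STEP `N' = σ N → N` (`N^(-1/2) ≤ σ ≤ 1`).  Group the labels in `σ`-clusters `J` (`exists_grp`), `F_J = gsum`.  For every centre `z` the family `F_J η((· - z)/N)` is robust at scale `σ` (`PkbFam.rob`), so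
   `∫_{B(z,N)} |F|^p ≤ D^p (∑_J y_J^(2/p))^(p/2)`, `y_J = A₁ N^d avp p E N F_J z` (`pkb_loc_dec`).   WEIGHTED HÖLDER (`pkb_holder`): `(∑ M_J)^(1-p/2) (∑_J y_J^(2/p))^(p/2) ≤ ∑_J M_J^(1-p/2) y_J` with `M_J = ∑_{T ∈ J} m_T w_T(z)`, `∑_J M_J = B(z)²`.
   `B²` and `M_J` vary slowly at scale `N` (`pkb_sq_neg_peetre`); integrate `dz` (Tonelli: `pkb_T1`, `pkb_T2`):  `∫ B^(2-p) |F|^p ≤ K D^p ∑_J ∫ M_J^(1-p/2) |F_J|^p`; apply 0. to every `J`.   NO pigeonholing, NO tails, NO comparable norms.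
2. BASE (`pkb_base`): Cauchy-Schwarz + the same weighted Hölder + `∑_T (1+d_T)^(-P') ≤ C' N^k` give the constant `K N^(k p/2)`.
3. ITERATION (`pkb_weighted`): `σ = N^(-1/2)`, `D = D_η N^(η/2)`: exponents `e₀ = k p/2`, `e_{j+1} = e_j/2 + η p/2`, so `e_j ≤ k p 2^(-j-1) + η p`.
`κ`-PLANES: everything is relative to a subspace `W` (labels within `C/N` of a translate of `W`): the only input is decoupling for robust families with centres within `C ρ` of a translate of `W` (`DecPowW`); `W = ⊤` is the full case.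
-/

set_option autoImplicit false
open MeasureTheory Set Metric
open scoped ENNReal NNReal

namespace Claimed.Agent.BD

noncomputable section

variable {V : Type} [NormedAddCommGroup V] [InnerProductSpace ℝ V] [FiniteDimensional ℝ V] [MeasurableSpace V] [BorelSpace V]

/-- decoupling constant for the robust families whose centres are within `C ρ` of a translate of the subspace `W`. -/
def DecLeW (W : Submodule ℝ V) (p C ρ : ℝ) (D : ℝ≥0∞) : Prop :=
  ∀ (ι : Type) (s : Finset ι) (v : ι → V) (H : ι → V × ℝ → ℂ), Rob C ρ s v H →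
    (∃ e : V, ∀ j ∈ s, ∃ w ∈ W, ‖v j - e - w‖ ≤ C * ρ) →
    nm p (fun z => ∑ j ∈ s, H j z) ≤ D * (∑ j ∈ s, nm p (H j) ^ (2 : ℝ)) ^ (1 / 2 : ℝ)

/-- decoupling with loss `ρ^(-η)` relative to `W`. -/
def DecPowW (W : Submodule ℝ V) (p η : ℝ) : Prop :=
  ∀ C : ℝ, ∃ D : ℝ, ∀ ρ : ℝ, 0 < ρ → ρ ≤ 1 → DecLeW W p C ρ (ENNReal.ofReal (D * ρ ^ (-η)))

theorem DecLe.toW {p C ρ : ℝ} {D : ℝ≥0∞} (h : DecLe V p C ρ D) (W : Submodule ℝ V) : DecLeW W p C ρ D :=
  fun ι s v H hR _ => h ι s v H hR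

theorem DecPow.toW {p η : ℝ} (h : DecPow V p η) (W : Submodule ℝ V) : DecPowW W p η := by
  intro C
  obtain ⟨D, hD⟩ := h C
  exact ⟨D, fun ρ h0 h1 => (hD ρ h0 h1).toW W⟩

/-- the envelope `(1 + |X_{N,v}(z) - c|)^(-P)` of the packet with label `v`, native centre `c`, scale `N`. -/
def pkbEnv (P N : ℝ) (v : V) (c z : V × ℝ) : ℝ≥0∞ := wt P 1 (Lam v N⁻¹ (N⁻¹ ^ 2) z - c)

open scoped Classical in
/-- a family of band limited packets of scale `N`: labels `v`, native centres `c`, amplitudes `a`, packets `f`. -/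
structure PkbFam (W : Submodule ℝ V) (C P' N : ℝ) {ι : Type} (s : Finset ι) (v : ι → V) (c : ι → V × ℝ) (a : ι → ℝ≥0∞)
    (f : ι → V × ℝ → ℂ) : Prop where
  /-- labels in a fixed ball -/
  bdd : ∀ j ∈ s, ‖v j‖ ≤ C
  /-- labels within `C/N` of a translate of `W` -/
  plane : ∃ e : V, ∀ j ∈ s, ∃ w ∈ W, ‖v j - e - w‖ ≤ C / N
  /-- Fourier support in the cap of the label -/
  fs : ∀ j ∈ s, FS (cap (v j) (C / N) (C / N ^ 2)) (f j)
  /-- polynomial decay in native coordinates -/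
  dec : ∀ j ∈ s, ∀ z, ‖f j z‖ₑ ≤ a j * pkbEnv P' N (v j) (c j) z
  /-- phase space multiplicity: bounded overlap of the envelopes of one frequency slot -/
  mult : ∀ (ξ : V) (z : V × ℝ), ∑ j ∈ s.filter (fun j => ‖v j - ξ‖ ≤ 1 / N), pkbEnv P' N (v j) (c j) z ≤ ENNReal.ofReal C

/-- the square envelope `B² = ∑_T m_T w_T`. -/
def pkbSq (P N : ℝ) {ι : Type} (s : Finset ι) (v : ι → V) (c : ι → V × ℝ) (m : ι → ℝ≥0∞) (z : V × ℝ) : ℝ≥0∞ :=
  ∑ j ∈ s, m j * pkbEnv P N (v j) (c j) z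

/-- `A` is a constant for the weighted packet estimate at scale `N`. -/
def PkbLe (W : Submodule ℝ V) (p P P' C N : ℝ) (A : ℝ≥0∞) : Prop :=
  ∀ (ι : Type) (s : Finset ι) (v : ι → V) (c : ι → V × ℝ) (a m : ι → ℝ≥0∞) (f : ι → V × ℝ → ℂ),
    PkbFam W C P' N s v c a f → (∀ j ∈ s, m j ≠ 0 ∧ m j ≠ ∞) →
    ∫⁻ z, pkbSq P N s v c m z ^ (1 - p / 2) * ‖∑ j ∈ s, f j z‖ₑ ^ p
      ≤ A * (ENNReal.ofReal (N ^ (Module.finrank ℝ V + 2)) * ∑ j ∈ s, a j ^ p * m j ^ (1 - p / 2))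

theorem PkbLe.mono {W : Submodule ℝ V} {p P P' C N : ℝ} {A A' : ℝ≥0∞} (h : PkbLe W p P P' C N A) (hA : A ≤ A') :
    PkbLe W p P P' C N A' :=
  fun ι s v c a m f hF hm => (h ι s v c a m f hF hm).trans (mul_le_mul_left hA _)

/-- Stores the on-demand equation lemmas of the definitions above in THIS module (rule 6 hygiene). -/
theorem pkb_forced : True := by
  have := @DecLeW.eq_1; have := @DecPowW.eq_1; have := @pkbEnv.eq_1; have := @pkbSq.eq_1; have := @PkbLe.eq_1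
  trivial

end

end Claimed.Agent.BD
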