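import Claimed.Agent.Lib.BD.Strip
import Claimed.Agent.R257.PK1.WDefs

/-!
# R257 / PK1 / WPlane : the input `DecPowW W p η` of `pkb_weighted` for EVERY subspace `W`   (helper203, BD captain)

`bd_decPowW` : `2 ≤ p`, `p κ ≤ 2 (κ + 2)` with `κ = finrank W`  ⟹  `DecPowW W p η` for all `η > 0`.
Proof: an orthonormal basis of `Wᗮ` gives the `m = finrank Wᗮ` orthonormal slabs of `NearFlag`; cite `bd_strip`.
-/

set_option autoImplicit false
open MeasureTheory Set Metric
open scoped ENNReal NNReal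

namespace Claimed.Agent.BD

noncomputable section

variable {V : Type} [NormedAddCommGroup V] [InnerProductSpace ℝ V] [FiniteDimensional ℝ V] [MeasurableSpace V] [BorelSpace V]

omit [MeasurableSpace V] [BorelSpace V] in
/-- points within `lam` of a translate of `W` lie in `finrank Wᗮ` orthonormal slabs of half width `lam`. -/
theorem nearFlag_of_plane (W : Submodule ℝ V) {lam : ℝ} {ι : Type} {s : Finset ι} {v : ι → V}
    (h : ∃ e : V, ∀ j ∈ s, ∃ w ∈ W, ‖v j - e - w‖ ≤ lam) :
    NearFlag (Module.finrank ℝ Wᗮ) lam s v := by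
  obtain ⟨e, he⟩ := h
  let b := stdOrthonormalBasis ℝ Wᗮ
  refine ⟨fun i => (b i : V), fun i => inner ℝ (b i : V) e, ?_, ?_⟩
  · have hb := b.orthonormal
    exact hb.comp_linearIsometry Wᗮ.subtypeₗᵢ
  · intro i j hj
    obtain ⟨w, hw, hle⟩ := he j hj
    have h0 : inner ℝ (b i : V) w = 0 :=
      Submodule.inner_left_of_mem_orthogonal hw (b i).2
    have h1 : inner ℝ (b i : V) (v j) - inner ℝ (b i : V) e = inner ℝ (b i : V) (v j - e - w) := by
      rw [inner_sub_right, inner_sub_right, h0, sub_zero]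
    have h2 : ‖(b i : V)‖ = 1 := by
      have := b.orthonormal.1 i
      rwa [Submodule.coe_norm] at this
    rw [h1]
    calc |inner ℝ (b i : V) (v j - e - w)| ≤ ‖(b i : V)‖ * ‖v j - e - w‖ := abs_real_inner_le_norm _ _
      _ = ‖v j - e - w‖ := by rw [h2, one_mul]
      _ ≤ lam := hle

/-- **`ℓ²` decoupling relative to a subspace** in the range of the DIMENSION OF THE SUBSPACE. -/
theorem bd_decPowW (W : Submodule ℝ V) {p : ℝ} (hp : 2 ≤ p)
    (hpq : p * (Module.finrank ℝ W : ℝ) ≤ 2 * ((Module.finrank ℝ W : ℝ) + 2)) {η : ℝ} (hη : 0 < η) :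
    DecPowW W p η := by
  have hV : Module.finrank ℝ V = Module.finrank ℝ W + Module.finrank ℝ Wᗮ :=
    (Submodule.finrank_add_finrank_orthogonal W).symm
  have hF : FlagPow V (Module.finrank ℝ Wᗮ) p η := bd_strip hV hp hpq hη
  intro C
  obtain ⟨D, hD⟩ := hF C
  exact ⟨D, fun ρ h0 h1 ι s v H hR hP => hD ρ h0 h1 ι s v H hR (nearFlag_of_plane W hP)⟩

end

end Claimed.Agent.BD
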