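import Claimed.Agent.R257.PK1.WOut
import Claimed.Agent.R257.PK1.WPlane

/-!
# R257 / PK1 / WFin : `p:weighted` (H packets.tex l.432-452) WITHOUT ANY HYPOTHESIS      (helper122)

`pkw_weighted` (`WOut.lean`) + `BD.bd_decPowW` (`WPlane.lean`, helper203; `ℓ²` decoupling relative to a subspace in the range of its dimension).
* `pkw_weighted_plane` : labels within `C₁/N` of a translate of `W`, `κ = finrank W`, `2 ≤ p`, `p κ ≤ 2(κ+2)` (i.e. `p ≤ q_κ`; `κ = 0`: every `p ≥ 2`);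
* `pkw_weighted_main`  : `W = ⊤`, `2 ≤ p`, `p k ≤ 2(k+2)`.
Consequences of `PkwLe`: `PkwLe.vol`, `PkwLe.disc`, `PkwLe.usep`, `PkwLe.count` (`WOut.lean`).   The lossless `p = 2` form is `pkw_two` (`WOut.lean`).
-/

set_option autoImplicit false
open MeasureTheory Set Metric
open scoped ENNReal NNReal

namespace Claimed.Agent.R257

variable {k : ℕ}

/-- **`p:weighted`, all `κ`-plane cases.** -/
theorem pkw_weighted_plane (W : Submodule ℝ (E k)) (K : PCls) (C₁ : ℝ) {p P r ε : ℝ} (hp : 2 ≤ p)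
    (hpq : p * (Module.finrank ℝ W : ℝ) ≤ 2 * ((Module.finrank ℝ W : ℝ) + 2)) (hP : 0 ≤ P) (hPP : P ≤ K.P') (hP' : (k : ℝ) + 1 < K.P')
    (hr : 0 ≤ r) (hε : 0 < ε) :
    ∃ Cst : ℝ, 0 ≤ Cst ∧ ∀ N : ℝ, 1 ≤ N → PkwLe W K C₁ p P r N (Cst * N ^ ε) :=
  pkw_weighted W K C₁ hp hP hPP hP' hr (fun _ hη => BD.bd_decPowW W hp hpq hη) hε

/-- **`p:weighted`, the full case `2 ≤ p ≤ q_k`.** -/
theorem pkw_weighted_main (K : PCls) (C₁ : ℝ) {p P r ε : ℝ} (hp : 2 ≤ p) (hpq : p * (k : ℝ) ≤ 2 * ((k : ℝ) + 2)) (hP : 0 ≤ P) (hPP : P ≤ K.P')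
    (hP' : (k : ℝ) + 1 < K.P') (hr : 0 ≤ r) (hε : 0 < ε) :
    ∃ Cst : ℝ, 0 ≤ Cst ∧ ∀ N : ℝ, 1 ≤ N → PkwLe (⊤ : Submodule ℝ (E k)) K C₁ p P r N (Cst * N ^ ε) :=
  pkw_weighted_plane ⊤ K C₁ hp (by simpa using hpq) hP hPP hP' hr hε

end Claimed.Agent.R257
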