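import Claimed.Agent.R257.PK1.WTree
import Claimed.Agent.R257.Tree.AngD

/-!
# R257 / PK1 / WRot : the entry contract `Tree.WtPl` of ANG-INST (`R257/Tree/AngD.lean`) FROM `pkw_weighted_plane` + ROTATION INVARIANCE      (cut by helper37)

`pkw_weighted_plane W` has a constant which depends on the subspace `W`;  `WtPl` wants ONE constant for all the affine hyperplanes `{⟪ξ, n⟫ = t}`, `‖n‖ = 1`.
Fix `W₀ = (ℝ ∙ e₀)ᗮ`, `e₀ = EuclideanSpace.single 0 1` (`k ≥ 1`; for `k = 0` there is no unit vector and `WtPl` is vacuous), `finrank W₀ = k - 1`, and rotate the family by an isometry `U` with `U n = e₀`.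

PLAN (model: `pkw_wtAt`, `PK1/WTree.lean`)
1. `pkwRot U z := (U z.1, z.2)` for `U : E k ≃ₗᵢ[ℝ] E k`:  `‖pkwRot U z‖ = ‖z‖`, additive, `natX N (U v) (pkwRot U z) = pkwRot U (natX N v z)`, `car (U v) (pkwRot U z) = car v z` (`U.inner_map_map`, `U.norm_map`).
2. `BD.FS (closedBall 0 ρ) F → BD.FS (closedBall 0 ρ) (fun X => F (pkwRot U.symm X))`:  `BD.bdu_FS_comp_linear` (`Lib/BD/FSApi.lean`) with `A = pkwRot U.symm`, `AT = ` the linear equivalence `pkwRot U`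
   (`pr (pkwRot U.symm z) w = pr z (pkwRot U w)`), the image of the ball is the ball.
3. Given the data of `WtPl`: `pkw_tree_in` gives `F` and `In s K a` for `A₀ = ⟨N, fr ∘ fst, lat ∘ snd, F⟩`.   Put `A' = ⟨N, fun T => U (fr T.1), fun T => pkwRot U (lat T.2), fun T X => F T (pkwRot U.symm X)⟩`.
   `A'.In s K a`: `fs` = step 2; `decay`: `‖pkwRot U.symm X - lat‖ = ‖X - pkwRot U lat‖`; `freq`: `U.norm_map`; `mult`: apply the `mult` of `A₀` at `(U.symm ξ, U.symm y, τ)`.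
   `A'.Near s W₀ C1` with `e = t • e₀`, `w = U (fr T.1) - ⟪U (fr T.1), e₀⟫ • e₀`:  `‖A'.v T - e - w‖ = |⟪U (fr T.1), e₀⟫ - t| = |⟪fr T.1, n⟫ - t|`.
   `U`: `Submodule.reflection (ℝ ∙ (n - e₀))ᗮ` (`Submodule.reflection_sub`/`reflection_sub` : `‖v‖ = ‖w‖ → reflection (ℝ ∙ (v - w))ᗮ v = w`).
4. `(hle N hN).usep` for `Y' = Y.image (pkwRot U)` (`USep` is preserved, `Finset.sum_image`), `A'.sq A s b (pkwRot U z) = ∑ b² pw A N (fr T.1) (lat T.2) z`, `A'.fld s (pkwRot U z) = ∑ f T z`.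
-/

set_option autoImplicit false
open MeasureTheory Set Metric
open scoped ENNReal NNReal InnerProductSpace
open Claimed.Agent.R257.Tree

namespace Claimed.Agent.R257

noncomputable section

variable {k : ℕ}

theorem pkw_rot_norm (U : E k ≃ₗᵢ[ℝ] E k) (z : ST k) : ‖((U z.1, z.2) : ST k)‖ = ‖z‖ := by
  rw [Prod.norm_def, Prod.norm_def, U.norm_map]

theorem pkw_rot_norm_sub (U : E k ≃ₗᵢ[ℝ] E k) (z w : ST k) : ‖((U z.1, z.2) : ST k) - (U w.1, w.2)‖ = ‖z - w‖ := by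
  rw [← pkw_rot_norm U (z - w)]
  congr 1
  ext1
  · simp
  · simp

theorem pkw_rot_natX (U : E k ≃ₗᵢ[ℝ] E k) (N : ℝ) (v : E k) (z : ST k) :
    natX N (U v) (U z.1, z.2) = (U (natX N v z).1, (natX N v z).2) := by
  unfold natX
  ext1
  · simp only [map_smul, map_sub]
  · rfl

theorem pkw_rot_car (U : E k ≃ₗᵢ[ℝ] E k) (v : E k) (z : ST k) : car (U v) (U z.1, z.2) = car v z := by
  unfold car
  simp only [U.inner_map_map, U.norm_map]

theorem pkw_rot_FS (U : E k ≃ₗᵢ[ℝ] E k) {ρ : ℝ} {F : ST k → ℂ} (hF : BD.FS (closedBall (0 : ST k) ρ) F) :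
    BD.FS (closedBall (0 : ST k) ρ) (fun X => F (U.symm X.1, X.2)) := by
  have h := BD.bdu_FS_comp_linear hF (fun X : ST k => ((U.symm X.1, X.2) : ST k)) (LinearEquiv.prodCongr U.toLinearEquiv (LinearEquiv.refl ℝ ℝ)) (fun z w => by
    unfold BD.pr
    have : ⟪U.symm z.1, w.1⟫_ℝ = ⟪z.1, U w.1⟫_ℝ := by
      rw [← U.inner_map_map, U.apply_symm_apply]
    simpa using this)
  refine BD.bdu_FS_mono h ?_
  rintro _ ⟨w, hw, rfl⟩
  rw [mem_closedBall, dist_zero_right] at hw ⊢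
  have : (LinearEquiv.prodCongr U.toLinearEquiv (LinearEquiv.refl ℝ ℝ)) w = ((U w.1, w.2) : ST k) := rfl
  rw [this, pkw_rot_norm]
  exact hw

theorem pkw_rot_in (U : E k ≃ₗᵢ[ℝ] E k) {ι : Type} {A₀ : PFam k ι} {s : Finset ι} {K : PCls} {a : ι → ℝ} (h : A₀.In s K a) :
    (⟨A₀.N, fun T => U (A₀.v T), fun T => (U (A₀.u T).1, (A₀.u T).2), fun T X => A₀.F T (U.symm X.1, X.2)⟩ : PFam k ι).In s K a := by
  refine ⟨h.one_le, fun T hT => pkw_rot_FS U (h.fs T hT), fun T hT X => ?_, fun T hT => ?_, ?_⟩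
  · have h1 := h.decay T hT (U.symm X.1, X.2)
    have e : ‖((U.symm X.1, X.2) : ST k) - A₀.u T‖ = ‖X - (U (A₀.u T).1, (A₀.u T).2)‖ := by
      rw [← pkw_rot_norm_sub U]
      simp
    rw [e] at h1
    exact h1
  · show ‖U (A₀.v T)‖ ≤ K.C₀
    rw [U.norm_map]
    exact h.freq T hT
  · intro ξ y τ t ht hh
    refine h.mult (U.symm ξ) (U.symm y) τ t ht fun T hT => ?_
    obtain ⟨h1, h2, h3⟩ := hh T hT
    refine ⟨?_, h2, ?_⟩
    · have h1' : ‖A₀.N • U (A₀.v T) - ξ‖ ≤ 1 := h1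
      rw [← U.norm_map]
      simpa using h1'
    · have h3' : ‖U (A₀.u T).1 + (2 * τ * A₀.N) • U (A₀.v T) - y‖ ≤ 1 := h3
      rw [← U.norm_map]
      simpa using h3'

theorem pkw_rot_sq (U : E k ≃ₗᵢ[ℝ] E k) {ι : Type} (A₀ : PFam k ι) (P : ℝ) (s : Finset ι) (b : ι → ℝ) (z : ST k) :
    (⟨A₀.N, fun T => U (A₀.v T), fun T => (U (A₀.u T).1, (A₀.u T).2), fun T X => A₀.F T (U.symm X.1, X.2)⟩ : PFam k ι).sq P s b (U z.1, z.2) = A₀.sq P s b z := by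
  unfold PFam.sq PFam.w PFam.d
  refine Finset.sum_congr rfl fun T _ => ?_
  simp only
  rw [pkw_rot_natX, pkw_rot_norm_sub]

theorem pkw_rot_fld (U : E k ≃ₗᵢ[ℝ] E k) {ι : Type} (A₀ : PFam k ι) (s : Finset ι) (z : ST k) :
    (⟨A₀.N, fun T => U (A₀.v T), fun T => (U (A₀.u T).1, (A₀.u T).2), fun T X => A₀.F T (U.symm X.1, X.2)⟩ : PFam k ι).fld s (U z.1, z.2) = A₀.fld s z := by
  unfold PFam.fld PFam.pk
  refine Finset.sum_congr rfl fun T _ => ?_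
  simp only
  rw [pkw_rot_natX, pkw_rot_car]
  simp

/-- **LEAF L-257-TIA-ROT: the contract `WtPl` of ANG-INST** (`p:weighted` for labels near a hyperplane, range `p ≤ q_{k-1}`, uniform in the hyperplane). -/
theorem pkw_wtPl {p A M : ℝ} (hp : 2 ≤ p) (hpq : p * ((k : ℝ) - 1) ≤ 2 * ((k : ℝ) + 1)) (hA : 0 ≤ A) (hAM : A ≤ M) (hM : (k : ℝ) + 1 < M) :
    WtPl k p A M := by
  classical
  intro ρ Cc Cm C1 ε hε
  rcases k with _ | k'
  · refine ⟨1, le_rfl, ?_⟩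
    intro N hN Λ _ fr hfr s a b f hc hpk hb hab n t hn
    exfalso
    have : n = 0 := Subsingleton.elim _ _
    rw [this, norm_zero] at hn
    exact zero_ne_one hn
  obtain ⟨e₀, he₀⟩ : ∃ e₀ : E (k' + 1), e₀ = EuclideanSpace.single 0 1 := ⟨_, rfl⟩
  have hne₀ : ‖e₀‖ = 1 := by rw [he₀]; simp
  have he₀0 : e₀ ≠ 0 := fun h => by rw [h, norm_zero] at hne₀; exact zero_ne_one hne₀
  haveI : Fact (Module.finrank ℝ (E (k' + 1)) = k' + 1) := ⟨finrank_euclideanSpace_fin⟩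
  have hfin : Module.finrank ℝ ((ℝ ∙ e₀)ᗮ : Submodule ℝ (E (k' + 1))) = k' := Submodule.finrank_orthogonal_span_singleton he₀0
  obtain ⟨Cst, hCst, hle⟩ := pkw_weighted_plane (k := k' + 1) ((ℝ ∙ e₀)ᗮ) ⟨ρ, M, Cc, 5 ^ (k' + 1 + 1) * ⌊Cm⌋₊⟩ C1 (P := A) (r := 0) hp (by
    rw [hfin]
    push_cast at hpq
    linarith) hA hAM hM le_rfl hε
  refine ⟨max 1 (Cst * (5 ^ (k' + 1 + 1) : ℕ)), le_max_left _ _, ?_⟩
  intro N hN Λ _ fr hfr s a b f hc hpk hb hab n t hn hnear Y hY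
  have hN0 : 0 < N := by linarith
  obtain ⟨F, hIn, hf⟩ := pkw_tree_in hN fr hfr s a f hc hpk
  have hab' : ∀ T ∈ s, b T = 0 → a T = 0 := fun T hT h0 => by_contra fun ha => (hab T hT ha).ne' h0
  obtain ⟨U, hU⟩ : ∃ U : E (k' + 1) ≃ₗᵢ[ℝ] E (k' + 1), U n = e₀ :=
    ⟨Submodule.reflection (ℝ ∙ (n - e₀))ᗮ, Submodule.reflection_sub (hn.trans hne₀.symm)⟩
  have hIn' := pkw_rot_in U hIn
  have hNear : (⟨N, fun T => U (fr T.1), fun T => (U (lat T.2).1, (lat T.2).2), fun T X => F T (U.symm X.1, X.2)⟩ : PFam (k' + 1) (Λ × Lat (k' + 1))).Near s ((ℝ ∙ e₀)ᗮ) C1 := by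
    refine ⟨t • e₀, fun T hT => ⟨U (fr T.1) - ⟪e₀, U (fr T.1)⟫_ℝ • e₀, ?_, ?_⟩⟩
    · rw [Submodule.mem_orthogonal_singleton_iff_inner_right, inner_sub_right, real_inner_smul_right, real_inner_self_eq_norm_sq, hne₀]
      ring
    · show ‖U (fr T.1) - t • e₀ - (U (fr T.1) - ⟪e₀, U (fr T.1)⟫_ℝ • e₀)‖ ≤ C1 / N
      have e : U (fr T.1) - t • e₀ - (U (fr T.1) - ⟪e₀, U (fr T.1)⟫_ℝ • e₀) = (⟪fr T.1, n⟫_ℝ - t) • e₀ := by
        rw [← hU, U.inner_map_map, real_inner_comm, sub_smul]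
        abel
      rw [e, norm_smul, hne₀, mul_one, Real.norm_eq_abs]
      exact hnear T hT
  have hinj : Function.Injective fun z : ST (k' + 1) => ((U z.1, z.2) : ST (k' + 1)) := by
    intro z z' h
    have h1 := congrArg Prod.fst h
    have h2 := congrArg Prod.snd h
    exact Prod.ext (U.injective h1) h2
  have hY' : USep (Y.image fun z : ST (k' + 1) => ((U z.1, z.2) : ST (k' + 1))) := by
    intro z hz z' hz' hne
    obtain ⟨w, hw, rfl⟩ := Finset.mem_image.1 hz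
    obtain ⟨w', hw', rfl⟩ := Finset.mem_image.1 hz'
    rw [pkw_rot_norm_sub]
    exact hY w hw w' hw' fun e => hne (by rw [e])
  have key := (hle N hN).usep (mul_nonneg hCst (Real.rpow_nonneg hN0.le _)) le_rfl rfl hIn' hNear hb hab' _ hY' id (by simp)
  rw [Finset.sum_image fun z _ z' _ h => hinj h] at key
  have hS : 0 ≤ ∑ T ∈ s, a T ^ p * b T ^ (2 - p) := Finset.sum_nonneg fun T hT =>
    mul_nonneg (Real.rpow_nonneg (hIn.amp_nonneg hT) _) (Real.rpow_nonneg (hb T hT) _)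
  have eN : N ^ (((k' + 1 : ℕ) : ℝ) + 2) = N ^ (k' + 1 + 2) := by
    rw [← Real.rpow_natCast]
    push_cast
    rfl
  calc ∑ z ∈ Y, (∑ T ∈ s, b T ^ 2 * pw A N (fr T.1) (lat T.2) z) ^ ((2 - p) / 2) * ‖∑ T ∈ s, f T z‖ ^ p
      = ∑ z ∈ Y, (⟨N, fun T => U (fr T.1), fun T => (U (lat T.2).1, (lat T.2).2), fun T X => F T (U.symm X.1, X.2)⟩ : PFam (k' + 1) (Λ × Lat (k' + 1))).sq A s b (id (U z.1, z.2)) ^ (1 - p / 2)
          * ‖(⟨N, fun T => U (fr T.1), fun T => (U (lat T.2).1, (lat T.2).2), fun T X => F T (U.symm X.1, X.2)⟩ : PFam (k' + 1) (Λ × Lat (k' + 1))).fld s (U z.1, z.2)‖ ^ p := by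
        refine Finset.sum_congr rfl fun z _ => ?_
        have e1 : (2 - p) / 2 = 1 - p / 2 := by ring
        have e2 : (⟨N, fun T => fr T.1, fun T => lat T.2, F⟩ : PFam (k' + 1) (Λ × Lat (k' + 1))).fld s z = ∑ T ∈ s, f T z :=
          Finset.sum_congr rfl fun T hT => hf T hT z
        have e3 := pkw_rot_fld U (⟨N, fun T => fr T.1, fun T => lat T.2, F⟩ : PFam (k' + 1) (Λ × Lat (k' + 1))) s z
        have e4 := pkw_rot_sq U (⟨N, fun T => fr T.1, fun T => lat T.2, F⟩ : PFam (k' + 1) (Λ × Lat (k' + 1))) A s b z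
        rw [id, e1, ← e2, e3, e4]
        rfl
    _ ≤ Cst * N ^ ε * (5 ^ (k' + 1 + 1) : ℕ) * (N ^ (((k' + 1 : ℕ) : ℝ) + 2) * ∑ T ∈ s, a T ^ p * b T ^ (2 - p)) := key
    _ = Cst * (5 ^ (k' + 1 + 1) : ℕ) * N ^ ε * N ^ (k' + 1 + 2) * ∑ T ∈ s, a T ^ p * b T ^ (2 - p) := by
        rw [eN]
        ring
    _ ≤ max 1 (Cst * (5 ^ (k' + 1 + 1) : ℕ)) * N ^ ε * N ^ (k' + 1 + 2) * ∑ T ∈ s, a T ^ p * b T ^ (2 - p) := by
        gcongr
        exact le_max_right _ _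

end

end Claimed.Agent.R257
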