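import Claimed.Agent.R257.PK1.WDefs

/-!
# R257 / PK1 / WAbs : abstract inequalities for the weighted packet estimate (weighted Hölder, Tonelli with slowly varying weights)      (architect helper136)
Every statement is a leaf; Mathlib + `Lib/BD/{Abs,Wt}` only.
-/

set_option autoImplicit false
open MeasureTheory Set Metric
open scoped ENNReal NNReal

namespace Claimed.Agent.BD

noncomputable section

variable {V : Type} [NormedAddCommGroup V] [InnerProductSpace ℝ V] [FiniteDimensional ℝ V] [MeasurableSpace V] [BorelSpace V]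

/-- **L-PKB-HOLDER** WEIGHTED HÖLDER, replaces all pigeonholing.  (`abs_weight_trick` with `θ = 2/p`, `g = y`, `m j = M j ^ (p/2)`: `∑ y^θ ≤ (∑ M^(1-p/2) y)^θ (∑ M)^(1-θ)`; raise to `p/2`; multiply by `(∑ M)^(1-p/2)`;
`∑ M ∈ (0,∞)` if `s ≠ ∅`; for `s = ∅` the left side is `∞ * 0 = 0` or `1 * 0`.) -/
theorem pkb_holder {p : ℝ} (hp : 2 ≤ p) {ι : Type} (s : Finset ι) (y M : ι → ℝ≥0∞) (hM : ∀ j ∈ s, M j ≠ 0 ∧ M j ≠ ∞) :
    (∑ j ∈ s, M j) ^ (1 - p / 2) * (∑ j ∈ s, y j ^ (2 / p)) ^ (p / 2) ≤ ∑ j ∈ s, M j ^ (1 - p / 2) * y j := by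
  have hp0 : 0 < p := by linarith
  have hq0 : 0 < p / 2 := by linarith
  rcases s.eq_empty_or_nonempty with rfl | hs
  · simp [ENNReal.zero_rpow_of_pos hq0]
  have hθ0 : 0 < 2 / p := by positivity
  have hθ1 : 2 / p ≤ 1 := by rw [div_le_one hp0]; exact hp
  have h := abs_weight_trick hθ0 hθ1 s y (fun j => M j ^ (p / 2))
    (fun j hj => ENNReal.rpow_ne_top_of_nonneg hq0.le (hM j hj).2)
    (fun j hj h0 => absurd ((ENNReal.rpow_eq_zero_iff_of_pos hq0).1 h0) (hM j hj).1)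
  have e1 : ∀ j, (M j ^ (p / 2)) ^ (2 / p - 1) = M j ^ (1 - p / 2) := by
    intro j
    rw [← ENNReal.rpow_mul]
    congr 1
    field_simp
  have e2 : ∀ j, (M j ^ (p / 2)) ^ (2 / p) = M j := by
    intro j
    rw [← ENNReal.rpow_mul]
    have : p / 2 * (2 / p) = 1 := by field_simp
    rw [this, ENNReal.rpow_one]
  simp only [e1, e2] at h
  have h2 := ENNReal.rpow_le_rpow h hq0.le
  rw [ENNReal.mul_rpow_of_nonneg _ _ hq0.le, ← ENNReal.rpow_mul, ← ENNReal.rpow_mul] at h2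
  have e3 : 2 / p * (p / 2) = 1 := by field_simp
  have e4 : (1 - 2 / p) * (p / 2) = p / 2 - 1 := by field_simp
  rw [e3, e4, ENNReal.rpow_one] at h2
  have hS0 : ∑ j ∈ s, M j ≠ 0 := by
    obtain ⟨j, hj⟩ := hs
    intro h0
    exact (hM j hj).1 ((Finset.sum_eq_zero_iff.1 h0) j hj)
  have hSt : ∑ j ∈ s, M j ≠ ∞ := ENNReal.sum_ne_top.2 fun j hj => (hM j hj).2
  calc (∑ j ∈ s, M j) ^ (1 - p / 2) * (∑ j ∈ s, y j ^ (2 / p)) ^ (p / 2)
      ≤ (∑ j ∈ s, M j) ^ (1 - p / 2) * ((∑ j ∈ s, M j ^ (1 - p / 2) * y j) * (∑ j ∈ s, M j) ^ (p / 2 - 1)) := mul_le_mul_right h2 _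
    _ = ((∑ j ∈ s, M j) ^ (1 - p / 2) * (∑ j ∈ s, M j) ^ (p / 2 - 1)) * (∑ j ∈ s, M j ^ (1 - p / 2) * y j) := by ring
    _ = _ := by
        rw [← ENNReal.rpow_add _ _ hS0 hSt]
        have : 1 - p / 2 + (p / 2 - 1) = 0 := by ring
        rw [this, ENNReal.rpow_zero, one_mul]

/-- **L-PKB-CS3** the three factor Hölder inequality of the base case.  (Cauchy-Schwarz `∑ a φ ≤ (∑ a² φ)^(1/2) (∑ φ)^(1/2)` (`ENNReal.inner_le_Lp_mul_Lq` with `a φ^(1/2)`, `φ^(1/2)`), then `pkb_holder` with `y = a^p φ^(p/2)`, `M = m φ`.) -/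
theorem pkb_cs3 {p : ℝ} (hp : 2 ≤ p) {ι : Type} (s : Finset ι) (a m φ : ι → ℝ≥0∞) (hm : ∀ j ∈ s, m j ≠ 0 ∧ m j ≠ ∞)
    (hφ : ∀ j ∈ s, φ j ≠ 0 ∧ φ j ≠ ∞) :
    (∑ j ∈ s, m j * φ j) ^ (1 - p / 2) * (∑ j ∈ s, a j * φ j) ^ p
      ≤ (∑ j ∈ s, φ j) ^ (p / 2) * ∑ j ∈ s, a j ^ p * m j ^ (1 - p / 2) * φ j := by
  have hp0 : 0 < p := by linarith
  have hq0 : 0 < p / 2 := by linarith
  -- Cauchy-Schwarz
  have hcs : ∑ j ∈ s, a j * φ j ≤ (∑ j ∈ s, a j ^ (2 : ℝ) * φ j) ^ (1 / 2 : ℝ) * (∑ j ∈ s, φ j) ^ (1 / 2 : ℝ) := by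
    have h := ENNReal.inner_le_Lp_mul_Lq s (fun j => a j * φ j ^ (1 / 2 : ℝ)) (fun j => φ j ^ (1 / 2 : ℝ)) Real.HolderConjugate.two_two
    have e1 : ∀ j, a j * φ j ^ (1 / 2 : ℝ) * φ j ^ (1 / 2 : ℝ) = a j * φ j := by
      intro j
      rw [mul_assoc, ← ENNReal.rpow_add_of_nonneg _ _ (by norm_num) (by norm_num)]
      norm_num
    have e2 : ∀ j, (a j * φ j ^ (1 / 2 : ℝ)) ^ (2 : ℝ) = a j ^ (2 : ℝ) * φ j := by
      intro j
      rw [ENNReal.mul_rpow_of_nonneg _ _ (by norm_num), ← ENNReal.rpow_mul]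
      norm_num
    have e3 : ∀ j, (φ j ^ (1 / 2 : ℝ)) ^ (2 : ℝ) = φ j := by
      intro j
      rw [← ENNReal.rpow_mul]
      norm_num
    simpa only [e1, e2, e3] using h
  have h1 : (∑ j ∈ s, a j * φ j) ^ p ≤ (∑ j ∈ s, a j ^ (2 : ℝ) * φ j) ^ (p / 2) * (∑ j ∈ s, φ j) ^ (p / 2) := by
    have := ENNReal.rpow_le_rpow hcs hp0.le
    rw [ENNReal.mul_rpow_of_nonneg _ _ hp0.le, ← ENNReal.rpow_mul, ← ENNReal.rpow_mul] at this
    have e : (1 / 2 : ℝ) * p = p / 2 := by ring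
    rwa [e] at this
  have h2 := pkb_holder hp s (fun j => a j ^ p * φ j ^ (p / 2)) (fun j => m j * φ j)
    (fun j hj => ⟨mul_ne_zero (hm j hj).1 (hφ j hj).1, ENNReal.mul_ne_top (hm j hj).2 (hφ j hj).2⟩)
  have e4 : ∀ j, (a j ^ p * φ j ^ (p / 2)) ^ (2 / p) = a j ^ (2 : ℝ) * φ j := by
    intro j
    rw [ENNReal.mul_rpow_of_nonneg _ _ (by positivity), ← ENNReal.rpow_mul, ← ENNReal.rpow_mul]
    have e5 : p * (2 / p) = 2 := by field_simp
    have e6 : p / 2 * (2 / p) = 1 := by field_simp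
    rw [e5, e6, ENNReal.rpow_one]
  have e7 : ∀ j ∈ s, (m j * φ j) ^ (1 - p / 2) * (a j ^ p * φ j ^ (p / 2)) = a j ^ p * m j ^ (1 - p / 2) * φ j := by
    intro j hj
    rw [ENNReal.mul_rpow_of_ne_top (hm j hj).2 (hφ j hj).2]
    have : φ j ^ (1 - p / 2) * φ j ^ (p / 2) = φ j := by
      rw [← ENNReal.rpow_add _ _ (hφ j hj).1 (hφ j hj).2]
      have : 1 - p / 2 + p / 2 = 1 := by ring
      rw [this, ENNReal.rpow_one]
    calc m j ^ (1 - p / 2) * φ j ^ (1 - p / 2) * (a j ^ p * φ j ^ (p / 2))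
        = a j ^ p * m j ^ (1 - p / 2) * (φ j ^ (1 - p / 2) * φ j ^ (p / 2)) := by ring
      _ = _ := by rw [this]
  simp only [e4] at h2
  rw [Finset.sum_congr rfl e7] at h2
  calc (∑ j ∈ s, m j * φ j) ^ (1 - p / 2) * (∑ j ∈ s, a j * φ j) ^ p
      ≤ (∑ j ∈ s, m j * φ j) ^ (1 - p / 2) * ((∑ j ∈ s, a j ^ (2 : ℝ) * φ j) ^ (p / 2) * (∑ j ∈ s, φ j) ^ (p / 2)) := mul_le_mul_right h1 _
    _ = (∑ j ∈ s, φ j) ^ (p / 2) * ((∑ j ∈ s, m j * φ j) ^ (1 - p / 2) * (∑ j ∈ s, a j ^ (2 : ℝ) * φ j) ^ (p / 2)) := by ring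
    _ ≤ _ := mul_le_mul_right h2 _

/-- Tonelli for the truncated kernel `1[dist y z ≤ N]`. -/
theorem pkb_T1_swap (N : ℝ) (u G : V × ℝ → ℝ≥0∞) (hu : Measurable u) (hG : Measurable G) :
    ∫⁻ y, G y * ∫⁻ z in closedBall y N, u z = ∫⁻ z, u z * ∫⁻ y in closedBall z N, G y := by
  have hS : MeasurableSet {q : (V × ℝ) × (V × ℝ) | dist q.1 q.2 ≤ N} :=
    (isClosed_le (continuous_fst.dist continuous_snd) continuous_const).measurableSet
  have hΦ : Measurable ({q : (V × ℝ) × (V × ℝ) | dist q.1 q.2 ≤ N}.indicator fun q => G q.1 * u q.2) :=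
    ((hG.comp measurable_fst).mul (hu.comp measurable_snd)).indicator hS
  have e1 : ∀ y, G y * ∫⁻ z in closedBall y N, u z
      = ∫⁻ z, {q : (V × ℝ) × (V × ℝ) | dist q.1 q.2 ≤ N}.indicator (fun q => G q.1 * u q.2) (y, z) := by
    intro y
    rw [← lintegral_indicator measurableSet_closedBall, ← lintegral_const_mul _ (hu.indicator measurableSet_closedBall)]
    refine lintegral_congr fun z => ?_
    by_cases h : dist y z ≤ N
    · rw [Set.indicator_of_mem (show z ∈ closedBall y N by rwa [mem_closedBall, dist_comm]),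
        Set.indicator_of_mem (show (y, z) ∈ {q : (V × ℝ) × (V × ℝ) | dist q.1 q.2 ≤ N} from h)]
    · rw [Set.indicator_of_notMem (show z ∉ closedBall y N by rwa [mem_closedBall, dist_comm]),
        Set.indicator_of_notMem (show (y, z) ∉ {q : (V × ℝ) × (V × ℝ) | dist q.1 q.2 ≤ N} from h), mul_zero]
  have e2 : ∀ z, u z * ∫⁻ y in closedBall z N, G y
      = ∫⁻ y, {q : (V × ℝ) × (V × ℝ) | dist q.1 q.2 ≤ N}.indicator (fun q => G q.1 * u q.2) (y, z) := by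
    intro z
    rw [← lintegral_indicator measurableSet_closedBall, ← lintegral_const_mul _ (hG.indicator measurableSet_closedBall)]
    refine lintegral_congr fun y => ?_
    by_cases h : dist y z ≤ N
    · rw [Set.indicator_of_mem (show y ∈ closedBall z N from h),
        Set.indicator_of_mem (show (y, z) ∈ {q : (V × ℝ) × (V × ℝ) | dist q.1 q.2 ≤ N} from h), mul_comm]
    · rw [Set.indicator_of_notMem (show y ∉ closedBall z N from h),
        Set.indicator_of_notMem (show (y, z) ∉ {q : (V × ℝ) × (V × ℝ) | dist q.1 q.2 ≤ N} from h), mul_zero]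
  simp only [e1, e2]
  exact lintegral_lintegral_swap (f := fun y z =>
    {q : (V × ℝ) × (V × ℝ) | dist q.1 q.2 ≤ N}.indicator (fun q => G q.1 * u q.2) (y, z)) hΦ.aemeasurable

/-- **L-PKB-T1** lower bound after integrating the centre.  (`∫⁻ y in closedBall z N, G y = ∫⁻ y, indicator ..`; Tonelli `lintegral_lintegral_swap`; for `‖z - y‖ ≤ N`: `u y * 2^(-E₀) ≤ u y * wt E₀ N (z - y) ≤ K * u z` (`wt_ge_of_le` with `A = 1`);
`volume (closedBall y N) = c N^d` (`exists_volume_closedBall`).  `c₁ = c 2^(-E₀)`.) -/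
theorem pkb_T1 {E₀ : ℝ} (hE₀ : 0 ≤ E₀) :
    ∃ c₁ : ℝ, 0 < c₁ ∧ ∀ (N : ℝ) (K : ℝ≥0∞) (u G : V × ℝ → ℝ≥0∞), 0 < N → Measurable u → Measurable G →
      (∀ y z, u z * wt E₀ N (y - z) ≤ K * u y) →
      ENNReal.ofReal (c₁ * N ^ (dd V : ℝ)) * ∫⁻ y, u y * G y ≤ K * ∫⁻ z, u z * ∫⁻ y in closedBall z N, G y := by
  obtain ⟨c, hc, hvol⟩ := exists_volume_closedBall (V := V)
  have h2 : (0 : ℝ) < (1 + 1) ^ (-E₀) := Real.rpow_pos_of_pos (by norm_num) _
  refine ⟨(1 + 1) ^ (-E₀) * c, by positivity, fun N K u G hN hu hG hK => ?_⟩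
  have hNd : 0 < N ^ (dd V : ℝ) := Real.rpow_pos_of_pos hN _
  have hpt : ∀ y, ENNReal.ofReal ((1 + 1) ^ (-E₀) * c * N ^ (dd V : ℝ)) * u y ≤ K * ∫⁻ z in closedBall y N, u z := by
    intro y
    calc ENNReal.ofReal ((1 + 1) ^ (-E₀) * c * N ^ (dd V : ℝ)) * u y
        = ∫⁻ _ in closedBall y N, u y * ENNReal.ofReal ((1 + 1) ^ (-E₀)) := by
          rw [setLIntegral_const, hvol y N hN, mul_assoc, ENNReal.ofReal_mul h2.le]
          ring
      _ ≤ ∫⁻ z in closedBall y N, K * u z := by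
          refine setLIntegral_mono' measurableSet_closedBall fun z hz => ?_
          rw [mem_closedBall, dist_eq_norm] at hz
          exact (mul_le_mul' le_rfl (wt_ge_of_le hE₀ hN (by rw [one_mul]; exact hz))).trans (hK z y)
      _ = K * ∫⁻ z in closedBall y N, u z := lintegral_const_mul _ hu
  calc ENNReal.ofReal ((1 + 1) ^ (-E₀) * c * N ^ (dd V : ℝ)) * ∫⁻ y, u y * G y
      = ∫⁻ y, G y * (ENNReal.ofReal ((1 + 1) ^ (-E₀) * c * N ^ (dd V : ℝ)) * u y) := by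
        have hm : Measurable fun y => u y * G y := hu.mul hG
        rw [← lintegral_const_mul _ hm]
        refine lintegral_congr fun y => ?_
        ring
    _ ≤ ∫⁻ y, K * (G y * ∫⁻ z in closedBall y N, u z) := by
        refine lintegral_mono fun y => ?_
        calc G y * (ENNReal.ofReal ((1 + 1) ^ (-E₀) * c * N ^ (dd V : ℝ)) * u y) ≤ G y * _ := mul_le_mul' le_rfl (hpt y)
          _ = _ := by ring
    _ = K * ∫⁻ y, G y * ∫⁻ z in closedBall y N, u z := by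
        refine lintegral_const_mul _ (hG.mul ?_)
        have hS : MeasurableSet {q : (V × ℝ) × (V × ℝ) | dist q.2 q.1 ≤ N} :=
          (isClosed_le (continuous_snd.dist continuous_fst) continuous_const).measurableSet
        have hm : Measurable ({q : (V × ℝ) × (V × ℝ) | dist q.2 q.1 ≤ N}.indicator fun q => u q.2) :=
          (hu.comp measurable_snd).indicator hS
        have e : (fun y => ∫⁻ z in closedBall y N, u z)
            = fun y => ∫⁻ z, {q : (V × ℝ) × (V × ℝ) | dist q.2 q.1 ≤ N}.indicator (fun q => u q.2) (y, z) := by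
          funext y
          rw [← lintegral_indicator measurableSet_closedBall]
          rfl
        rw [e]
        exact hm.lintegral_prod_right'
    _ = _ := by rw [pkb_T1_swap N u G hu hG]

/-- **L-PKB-T2** upper bound after integrating the centre.  (`avp p (E₀+E₁) N F z = N^(-d) ∫ |F y|^p wt E₀ N (y-z) wt E₁ N (y-z) dy` (`wt_mul`); Tonelli; `u z * wt E₀ N (y - z) ≤ K * u y`; `∫ wt E₁ N (y - z) dz = c N^d` (`exists_lintegral_wt`, `lintegral_sub_left_eq_self`).) -/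
theorem pkb_T2 (E₀ : ℝ) {E₁ : ℝ} (hE₁ : (dd V : ℝ) < E₁) :
    ∃ c₂ : ℝ, 0 < c₂ ∧ ∀ (N p : ℝ) (K : ℝ≥0∞) (u : V × ℝ → ℝ≥0∞) (F : V × ℝ → ℂ), 0 < N → Measurable u → Continuous F →
      (∀ y z, u z * wt E₀ N (y - z) ≤ K * u y) →
      ∫⁻ z, u z * avp p (E₀ + E₁) N F z ≤ ENNReal.ofReal c₂ * K * ∫⁻ y, u y * ‖F y‖ₑ ^ p := by
  obtain ⟨c, hc, hwt⟩ := exists_lintegral_wt (V := V) hE₁
  refine ⟨c, hc, fun N p K u F hN hu hF hK => ?_⟩
  have hhaar : (volume : Measure (V × ℝ)).IsAddHaarMeasure := by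
    rw [Measure.volume_eq_prod]
    infer_instance
  have hNd : 0 < N ^ (dd V : ℝ) := Real.rpow_pos_of_pos hN _
  have hP : Measurable fun y => ‖F y‖ₑ ^ p := (hF.measurable.enorm).pow_const _
  have hw : Measurable (wt E₁ N : V × ℝ → ℝ≥0∞) := measurable_wt E₁ N
  have hw2 : Measurable (wt (E₀ + E₁) N : V × ℝ → ℝ≥0∞) := measurable_wt _ N
  unfold avp
  calc ∫⁻ z, u z * (ENNReal.ofReal (N ^ (-(dd V : ℝ))) * ∫⁻ y, ‖F y‖ₑ ^ p * wt (E₀ + E₁) N (y - z))
      = ∫⁻ z, ∫⁻ y, ENNReal.ofReal (N ^ (-(dd V : ℝ))) * (u z * (‖F y‖ₑ ^ p * wt (E₀ + E₁) N (y - z))) := by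
        refine lintegral_congr fun z => ?_
        have hm : Measurable fun y => ‖F y‖ₑ ^ p * wt (E₀ + E₁) N (y - z) :=
          hP.mul (hw2.comp (measurable_id.sub measurable_const))
        rw [lintegral_const_mul _ (hm.const_mul _), lintegral_const_mul _ hm]
        ring
    _ ≤ ∫⁻ z, ∫⁻ y, ENNReal.ofReal (N ^ (-(dd V : ℝ))) * K * (u y * ‖F y‖ₑ ^ p) * wt E₁ N (y - z) := by
        refine lintegral_mono fun z => lintegral_mono fun y => ?_
        rw [← wt_mul hN]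
        calc ENNReal.ofReal (N ^ (-(dd V : ℝ))) * (u z * (‖F y‖ₑ ^ p * (wt E₀ N (y - z) * wt E₁ N (y - z))))
            = ENNReal.ofReal (N ^ (-(dd V : ℝ))) * ‖F y‖ₑ ^ p * wt E₁ N (y - z) * (u z * wt E₀ N (y - z)) := by ring
          _ ≤ ENNReal.ofReal (N ^ (-(dd V : ℝ))) * ‖F y‖ₑ ^ p * wt E₁ N (y - z) * (K * u y) := mul_le_mul' le_rfl (hK y z)
          _ = _ := by ring
    _ = ∫⁻ y, ∫⁻ z, ENNReal.ofReal (N ^ (-(dd V : ℝ))) * K * (u y * ‖F y‖ₑ ^ p) * wt E₁ N (y - z) := by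
        refine lintegral_lintegral_swap (Measurable.aemeasurable ?_)
        exact (((hu.comp measurable_snd).mul (hP.comp measurable_snd)).const_mul _).mul
          (hw.comp (measurable_snd.sub measurable_fst))
    _ = ∫⁻ y, ENNReal.ofReal c * K * (u y * ‖F y‖ₑ ^ p) := by
        refine lintegral_congr fun y => ?_
        have hm : Measurable fun z => wt E₁ N (y - z) := hw.comp (measurable_const.sub measurable_id)
        rw [lintegral_const_mul _ hm, lintegral_sub_left_eq_self (fun x => wt E₁ N x) y, hwt N hN]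
        have e : ENNReal.ofReal (N ^ (-(dd V : ℝ))) * ENNReal.ofReal (c * N ^ (dd V : ℝ)) = ENNReal.ofReal c := by
          rw [← ENNReal.ofReal_mul (by positivity)]
          congr 1
          rw [Real.rpow_neg hN.le]
          field_simp
        calc ENNReal.ofReal (N ^ (-(dd V : ℝ))) * K * (u y * ‖F y‖ₑ ^ p) * ENNReal.ofReal (c * N ^ (dd V : ℝ))
            = (ENNReal.ofReal (N ^ (-(dd V : ℝ))) * ENNReal.ofReal (c * N ^ (dd V : ℝ))) * K * (u y * ‖F y‖ₑ ^ p) := by ring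
          _ = _ := by rw [e]
    _ = _ := lintegral_const_mul _ (hu.mul hP)

end

end Claimed.Agent.BD
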