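import Claimed.Agent.R257.PK1.WFam
import Claimed.Agent.R257.PK1.WAbs

/-!
# R257 / PK1 / WBase : the trivial bound `K N^(k p/2)` for the weighted packet estimate      (architect helper136)
-/

set_option autoImplicit false
open MeasureTheory Set Metric
open scoped ENNReal NNReal

namespace Claimed.Agent.BD

noncomputable section

variable {V : Type} [NormedAddCommGroup V] [InnerProductSpace ℝ V] [FiniteDimensional ℝ V] [MeasurableSpace V] [BorelSpace V]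
variable {ι : Type}

theorem pkbb_rpow_anti {x y : ℝ≥0∞} {z : ℝ} (hz : z ≤ 0) (h : x ≤ y) : y ^ z ≤ x ^ z := by
  obtain ⟨w, rfl⟩ : ∃ w : ℝ, z = -w := ⟨-z, by ring⟩
  rw [ENNReal.rpow_neg, ENNReal.rpow_neg]
  exact ENNReal.inv_le_inv.2 (ENNReal.rpow_le_rpow h (by linarith))

/-- **L-PKB-BASE-PT** the pointwise inequality of the base case.  (`‖∑ f‖ₑ ≤ ∑ a φ` (`enorm_sum_le`, `h.dec`), `φ = pkbEnv P'`; `pkbSq P ≥ ∑ m φ` (`pkb_env_mono`) and `x ↦ x^(1-p/2)` antitone; `pkb_cs3`; `PkbFam.count`.) -/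
theorem pkb_base_pt {W : Submodule ℝ V} {p P P' C N : ℝ} (hp : 2 ≤ p) (hPP : P ≤ P') (hC : 0 ≤ C) (hN : 0 < N)
    {s : Finset ι} {v : ι → V} {c : ι → V × ℝ} {a m : ι → ℝ≥0∞} {f : ι → V × ℝ → ℂ}
    (h : PkbFam W C P' N s v c a f) (hm : ∀ j ∈ s, m j ≠ 0 ∧ m j ≠ ∞) (z : V × ℝ) :
    pkbSq P N s v c m z ^ (1 - p / 2) * ‖∑ j ∈ s, f j z‖ₑ ^ p
      ≤ ENNReal.ofReal ((2 * (C * N) + 1) ^ Module.finrank ℝ V * C) ^ (p / 2) *
        ∑ j ∈ s, a j ^ p * m j ^ (1 - p / 2) * pkbEnv P' N (v j) (c j) z := by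
  have hp0 : 0 < p := by linarith
  have h1 : ‖∑ j ∈ s, f j z‖ₑ ≤ ∑ j ∈ s, a j * pkbEnv P' N (v j) (c j) z :=
    (enorm_sum_le _ _).trans (Finset.sum_le_sum fun j hj => h.dec j hj z)
  have h2 : ∑ j ∈ s, m j * pkbEnv P' N (v j) (c j) z ≤ pkbSq P N s v c m z := by
    unfold pkbSq
    exact Finset.sum_le_sum fun j _ => by
      gcongr
      exact pkb_env_mono hPP N (v j) (c j) z
  calc pkbSq P N s v c m z ^ (1 - p / 2) * ‖∑ j ∈ s, f j z‖ₑ ^ p
      ≤ (∑ j ∈ s, m j * pkbEnv P' N (v j) (c j) z) ^ (1 - p / 2) * (∑ j ∈ s, a j * pkbEnv P' N (v j) (c j) z) ^ p := by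
        exact mul_le_mul' (pkbb_rpow_anti (by linarith) h2) (ENNReal.rpow_le_rpow h1 hp0.le)
    _ ≤ (∑ j ∈ s, pkbEnv P' N (v j) (c j) z) ^ (p / 2) * ∑ j ∈ s, a j ^ p * m j ^ (1 - p / 2) * pkbEnv P' N (v j) (c j) z :=
        pkb_cs3 hp s a m _ hm fun j _ => ⟨pkb_env_ne_zero _ _ _ _ _, pkb_env_ne_top _ _ _ _ _⟩
    _ ≤ _ := by
        gcongr
        exact h.count hC hN z

/-- **L-PKB-BASE** the trivial bound.  (Integrate `pkb_base_pt`: `lintegral_const_mul`, `lintegral_finset_sum`, `pkb_lintegral_env`; `(2 C N + 1)^k C ≤ (2C+1)^k C N^k`; `K = ((2C+1)^k C)^(p/2) c₀`.) -/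
theorem pkb_base (W : Submodule ℝ V) {p P P' C : ℝ} (hp : 2 ≤ p) (hPP : P ≤ P') (hP' : (dd V : ℝ) < P') (hC : 0 ≤ C) :
    ∃ K : ℝ, 0 ≤ K ∧ ∀ N : ℝ, 1 ≤ N → PkbLe W p P P' C N (ENNReal.ofReal (K * N ^ ((Module.finrank ℝ V : ℝ) * p / 2))) := by
  have hp0 : 0 < p := by linarith
  obtain ⟨c₀, hc₀, hint⟩ := pkb_lintegral_env (V := V) hP'
  refine ⟨((2 * C + 1) ^ Module.finrank ℝ V * C) ^ (p / 2) * c₀, by positivity, fun N hN ι s v c a m f hF hm => ?_⟩
  have hN0 : 0 < N := by linarith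
  have hK : ENNReal.ofReal ((2 * (C * N) + 1) ^ Module.finrank ℝ V * C) ^ (p / 2)
      ≤ ENNReal.ofReal (((2 * C + 1) ^ Module.finrank ℝ V * C) ^ (p / 2) * N ^ ((Module.finrank ℝ V : ℝ) * p / 2)) := by
    rw [ENNReal.ofReal_rpow_of_nonneg (by positivity) (by positivity)]
    apply ENNReal.ofReal_le_ofReal
    have e : N ^ ((Module.finrank ℝ V : ℝ) * p / 2) = (N ^ Module.finrank ℝ V) ^ (p / 2) := by
      rw [← Real.rpow_natCast, ← Real.rpow_mul hN0.le]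
      congr 1
      ring
    rw [e, ← Real.mul_rpow (by positivity) (by positivity)]
    apply Real.rpow_le_rpow (by positivity) _ (by positivity)
    calc (2 * (C * N) + 1) ^ Module.finrank ℝ V * C ≤ ((2 * C + 1) * N) ^ Module.finrank ℝ V * C := by
          gcongr
          nlinarith
      _ = _ := by
          rw [mul_pow]
          ring
  calc ∫⁻ z, pkbSq P N s v c m z ^ (1 - p / 2) * ‖∑ j ∈ s, f j z‖ₑ ^ p
      ≤ ∫⁻ z, ENNReal.ofReal ((2 * (C * N) + 1) ^ Module.finrank ℝ V * C) ^ (p / 2) *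
          ∑ j ∈ s, a j ^ p * m j ^ (1 - p / 2) * pkbEnv P' N (v j) (c j) z :=
        lintegral_mono fun z => pkb_base_pt hp hPP hC hN0 hF hm z
    _ = ENNReal.ofReal ((2 * (C * N) + 1) ^ Module.finrank ℝ V * C) ^ (p / 2) *
          ∑ j ∈ s, a j ^ p * m j ^ (1 - p / 2) * ENNReal.ofReal (c₀ * N ^ (Module.finrank ℝ V + 2)) := by
        rw [lintegral_const_mul _ (Finset.measurable_fun_sum _ fun j _ => (pkb_measurable_env P' N (v j) (c j)).const_mul _),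
          lintegral_finsetSum _ fun j _ => (pkb_measurable_env P' N (v j) (c j)).const_mul _]
        congr 1
        refine Finset.sum_congr rfl fun j _ => ?_
        rw [lintegral_const_mul _ (pkb_measurable_env P' N (v j) (c j)), hint N (v j) (c j) hN0]
    _ ≤ ENNReal.ofReal (((2 * C + 1) ^ Module.finrank ℝ V * C) ^ (p / 2) * N ^ ((Module.finrank ℝ V : ℝ) * p / 2)) *
          ∑ j ∈ s, a j ^ p * m j ^ (1 - p / 2) * ENNReal.ofReal (c₀ * N ^ (Module.finrank ℝ V + 2)) := by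
        gcongr
    _ = _ := by
        rw [← Finset.sum_mul, ENNReal.ofReal_mul hc₀.le, ENNReal.ofReal_mul (by positivity), ENNReal.ofReal_mul (by positivity),
          ENNReal.ofReal_mul (by positivity)]
        ring

end

end Claimed.Agent.BD
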