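import Claimed.Agent.R257.PK1.WDefs

/-!
# R257 / PK1 / WEnv : the envelopes `pkbEnv`, the square envelope `pkbSq`      (architect helper136)
Every statement is a leaf; tools: `Lib/BD/Wt.lean` (`wt_*`), `Lib/BD/Fs.lean` (`lintegral_Lam`), `bdlc_Lam_sub`.
-/

set_option autoImplicit false
open MeasureTheory Set Metric
open scoped ENNReal NNReal

namespace Claimed.Agent.BD

noncomputable section

variable {V : Type} [NormedAddCommGroup V] [InnerProductSpace ℝ V] [FiniteDimensional ℝ V] [MeasurableSpace V] [BorelSpace V]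

theorem pkb_measurable_env (P N : ℝ) (v : V) (c : V × ℝ) : Measurable (pkbEnv P N v c) := by
  unfold pkbEnv
  refine (measurable_wt P 1).comp ?_
  have : Continuous fun z : V × ℝ => Lam v N⁻¹ (N⁻¹ ^ 2) z - c := by
    unfold Lam
    fun_prop
  exact this.measurable

theorem pkb_env_ne_zero (P N : ℝ) (v : V) (c z : V × ℝ) : pkbEnv P N v c z ≠ 0 :=
  (wt_pos P one_pos _).ne'

theorem pkb_env_ne_top (P N : ℝ) (v : V) (c z : V × ℝ) : pkbEnv P N v c z ≠ ∞ := ENNReal.ofReal_ne_top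

theorem pkb_env_mono {P P' : ℝ} (h : P ≤ P') (N : ℝ) (v : V) (c z : V × ℝ) : pkbEnv P' N v c z ≤ pkbEnv P N v c z :=
  wt_mono_E h one_pos _

/-- **L-PKB-ENV-RESC** EXACT invariance of the native coordinates under the parabolic rescaling. (`Lam (σ⁻¹(v-u)) (σN)⁻¹ ((σN)⁻¹)² (Lam u σ σ² z) = Lam v N⁻¹ (N⁻¹)² z`: `Prod.ext`, `field_simp`, `module`.) -/
theorem pkb_env_resc (P : ℝ) {N σ : ℝ} (hN : 0 < N) (hσ : 0 < σ) (u v : V) (c z : V × ℝ) :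
    pkbEnv P (σ * N) (σ⁻¹ • (v - u)) c (Lam u σ (σ ^ 2) z) = pkbEnv P N v c z := by
  unfold pkbEnv
  congr 2
  unfold Lam
  refine Prod.ext ?_ ?_
  · simp only [smul_add, smul_smul, smul_sub]
    have e1 : (σ * N)⁻¹ * σ = N⁻¹ := by field_simp
    have e2 : (σ * N)⁻¹ * (σ * (2 * z.2)) = N⁻¹ * (2 * z.2) := by field_simp
    have e3 : (σ * N)⁻¹ * (2 * (σ ^ 2 * z.2) * σ⁻¹) = N⁻¹ * (2 * z.2) := by field_simp
    rw [e1, e2, e3]
    abel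
  · simp only
    field_simp

/-- **L-PKB-ENV-PEETRE** the envelopes vary slowly at scale `N`.  (`Lam y - c = (Lam z - c) + Lam (y - z)` (`bdlc_Lam_sub`), `wt_peetre`; `‖Lam v N⁻¹ (N⁻¹)² w‖ ≤ (1 + 2C) ‖w‖ / N` (sup norm, `N ≥ 1`);
`(1 + K t)^(-P) ≥ K^(-P) (1 + t)^(-P)` for `K ≥ 1`.) -/
theorem pkb_env_peetre {P N C : ℝ} (hP : 0 ≤ P) (hN : 1 ≤ N) {v : V} (hv : ‖v‖ ≤ C) (c y z : V × ℝ) :
    pkbEnv P N v c z * wt P N (y - z) ≤ ENNReal.ofReal ((1 + 2 * C) ^ P) * pkbEnv P N v c y := by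
  have hN0 : 0 < N := by linarith
  have hC : 0 ≤ C := (norm_nonneg v).trans hv
  have hK : 1 ≤ 1 + 2 * C := by linarith
  -- norm of Lam
  have hL : ‖Lam v N⁻¹ (N⁻¹ ^ 2) (y - z)‖ ≤ (1 + 2 * C) * (‖y - z‖ / N) := by
    set w := y - z with hw
    have h1 : ‖w.1‖ ≤ ‖w‖ := norm_fst_le w
    have h2 : |w.2| ≤ ‖w‖ := norm_snd_le w
    have hNi : 0 < N⁻¹ := by positivity
    have hNi1 : N⁻¹ ≤ 1 := inv_le_one_of_one_le₀ hN
    unfold Lam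
    rw [Prod.norm_def]
    refine max_le ?_ ?_
    · simp only
      rw [norm_smul, Real.norm_eq_abs, abs_of_pos hNi]
      have : ‖w.1 + (2 * w.2) • v‖ ≤ (1 + 2 * C) * ‖w‖ := by
        calc ‖w.1 + (2 * w.2) • v‖ ≤ ‖w.1‖ + ‖(2 * w.2) • v‖ := norm_add_le _ _
          _ = ‖w.1‖ + 2 * |w.2| * ‖v‖ := by rw [norm_smul, Real.norm_eq_abs, abs_mul, abs_two]
          _ ≤ ‖w‖ + 2 * ‖w‖ * C := by gcongr
          _ = _ := by ring
      calc N⁻¹ * ‖w.1 + (2 * w.2) • v‖ ≤ N⁻¹ * ((1 + 2 * C) * ‖w‖) := by gcongr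
        _ = _ := by rw [div_eq_mul_inv]; ring
    · simp only
      rw [Real.norm_eq_abs, abs_mul, abs_of_pos (by positivity : 0 < N⁻¹ ^ 2)]
      have h3 : N⁻¹ ^ 2 ≤ N⁻¹ := by nlinarith
      calc N⁻¹ ^ 2 * |w.2| ≤ N⁻¹ * ‖w‖ := by gcongr
        _ ≤ (1 + 2 * C) * (N⁻¹ * ‖w‖) := by
            have : 0 ≤ N⁻¹ * ‖w‖ := by positivity
            nlinarith
        _ = _ := by rw [div_eq_mul_inv]; ring
  have hdec : Lam v N⁻¹ (N⁻¹ ^ 2) y - c = (Lam v N⁻¹ (N⁻¹ ^ 2) z - c) + Lam v N⁻¹ (N⁻¹ ^ 2) (y - z) := by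
    rw [bdlc_Lam_sub]
    abel
  have h1 : wt P N (y - z) ≤ ENNReal.ofReal ((1 + 2 * C) ^ P) * wt P 1 (Lam v N⁻¹ (N⁻¹ ^ 2) (y - z)) := by
    unfold wt
    rw [← ENNReal.ofReal_mul (by positivity)]
    refine ENNReal.ofReal_le_ofReal ?_
    have hb : 0 < 1 + ‖Lam v N⁻¹ (N⁻¹ ^ 2) (y - z)‖ / 1 := by positivity
    have hb2 : 0 < 1 + ‖y - z‖ / N := by positivity
    have h2 : 1 + ‖Lam v N⁻¹ (N⁻¹ ^ 2) (y - z)‖ / 1 ≤ (1 + 2 * C) * (1 + ‖y - z‖ / N) := by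
      rw [div_one]
      have : 0 ≤ ‖y - z‖ / N := by positivity
      nlinarith
    calc (1 + ‖y - z‖ / N) ^ (-P) = (1 + 2 * C) ^ P * ((1 + 2 * C) * (1 + ‖y - z‖ / N)) ^ (-P) := by
          rw [Real.mul_rpow (by linarith : (0:ℝ) ≤ 1 + 2 * C) hb2.le, Real.rpow_neg (by linarith : (0:ℝ) ≤ 1 + 2 * C), ← mul_assoc,
            mul_inv_cancel₀ (Real.rpow_pos_of_pos (by linarith : (0:ℝ) < 1 + 2 * C) P).ne', one_mul]
      _ ≤ (1 + 2 * C) ^ P * (1 + ‖Lam v N⁻¹ (N⁻¹ ^ 2) (y - z)‖ / 1) ^ (-P) := by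
          refine mul_le_mul_of_nonneg_left ?_ (Real.rpow_nonneg (by linarith) _)
          exact Real.rpow_le_rpow_of_nonpos hb h2 (by linarith : -P ≤ 0)
  unfold pkbEnv
  rw [hdec]
  calc wt P 1 (Lam v N⁻¹ (N⁻¹ ^ 2) z - c) * wt P N (y - z)
      ≤ wt P 1 (Lam v N⁻¹ (N⁻¹ ^ 2) z - c) * (ENNReal.ofReal ((1 + 2 * C) ^ P) * wt P 1 (Lam v N⁻¹ (N⁻¹ ^ 2) (y - z))) := by gcongr
    _ = ENNReal.ofReal ((1 + 2 * C) ^ P) * (wt P 1 (Lam v N⁻¹ (N⁻¹ ^ 2) z - c) * wt P 1 (Lam v N⁻¹ (N⁻¹ ^ 2) (y - z))) := by ring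
    _ ≤ _ := by
        gcongr
        exact wt_peetre hP one_pos _ _

/-- **L-PKB-ENV-INT** (`lintegral_Lam` with `a = N⁻¹`, `b = (N⁻¹)²`, translation invariance `lintegral_sub_right_eq_self`, `exists_lintegral_wt` at `R = 1`.) -/
theorem pkb_lintegral_env {P : ℝ} (hP : (dd V : ℝ) < P) :
    ∃ c₀ : ℝ, 0 < c₀ ∧ ∀ (N : ℝ) (v : V) (c : V × ℝ), 0 < N →
      ∫⁻ z, pkbEnv P N v c z = ENNReal.ofReal (c₀ * N ^ (Module.finrank ℝ V + 2)) := by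
  obtain ⟨c₀, hc₀, h⟩ := exists_lintegral_wt (V := V) hP
  refine ⟨c₀, hc₀, fun N v c hN => ?_⟩
  unfold pkbEnv
  rw [lintegral_Lam v (by positivity : 0 < N⁻¹) (by positivity : 0 < N⁻¹ ^ 2) (fun z => wt P 1 (z - c)),
    lintegral_sub_right_eq_self (fun z => wt P 1 z) c, h 1 one_pos, ← ENNReal.ofReal_mul (by positivity)]
  congr 1
  rw [Real.one_rpow, mul_one, pow_add, inv_pow, inv_pow, ← mul_inv, inv_inv]
  ring

variable {ι : Type}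

theorem pkb_measurable_sq (P N : ℝ) (s : Finset ι) (v : ι → V) (c : ι → V × ℝ) (m : ι → ℝ≥0∞) : Measurable (pkbSq P N s v c m) := by
  unfold pkbSq
  exact Finset.measurable_sum _ fun j _ => (pkb_measurable_env P N (v j) (c j)).const_mul _

theorem pkb_sq_ne_zero (P N : ℝ) {s : Finset ι} (hs : s.Nonempty) (v : ι → V) (c : ι → V × ℝ) {m : ι → ℝ≥0∞} (hm : ∀ j ∈ s, m j ≠ 0 ∧ m j ≠ ∞)
    (z : V × ℝ) : pkbSq P N s v c m z ≠ 0 := by
  obtain ⟨j, hj⟩ := hs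
  unfold pkbSq
  intro h
  have := (Finset.sum_eq_zero_iff.1 h) j hj
  exact mul_ne_zero (hm j hj).1 (pkb_env_ne_zero P N (v j) (c j) z) this

theorem pkb_sq_ne_top (P N : ℝ) (s : Finset ι) (v : ι → V) (c : ι → V × ℝ) {m : ι → ℝ≥0∞} (hm : ∀ j ∈ s, m j ≠ 0 ∧ m j ≠ ∞)
    (z : V × ℝ) : pkbSq P N s v c m z ≠ ∞ := by
  unfold pkbSq
  exact ENNReal.sum_ne_top.2 fun j hj => ENNReal.mul_ne_top (hm j hj).2 (pkb_env_ne_top P N (v j) (c j) z)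

open scoped Classical in
/-- the square envelope is the sum of the square envelopes of the fibres. (`Finset.sum_fiberwise_of_maps_to`.) -/
theorem pkb_sq_fiber (P N : ℝ) (s : Finset ι) (v : ι → V) (c : ι → V × ℝ) (m : ι → ℝ≥0∞) (π : ι → ι) (z : V × ℝ) :
    ∑ J ∈ s.image π, pkbSq P N (s.filter fun θ => π θ = J) v c m z = pkbSq P N s v c m z := by
  unfold pkbSq
  exact Finset.sum_fiberwise_of_maps_to (fun θ hθ => Finset.mem_image_of_mem π hθ) _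

/-- **L-PKB-SQ-PEETRE** negative powers of the square envelope vary slowly at scale `N`.  (Sum `pkb_env_peetre` (with `y`, `z` exchanged): `Sq y * wt P N (z - y) ≤ K^P Sq z`; `x ↦ x^(1-p/2)` is antitone (`ENNReal.rpow_le_rpow_of_nonpos` or via `ENNReal.inv_rpow`);
`wt P N w ^ (p/2-1) = wt (P (p/2-1)) N w`, `wt` is even, `0 < wt < ∞`.  For `s = ∅`: both sides are `∞` (`p > 2`) or `wt 0 N _ = 1` (`p = 2`).) -/
theorem pkb_sq_neg_peetre {p P N C : ℝ} (hp : 2 ≤ p) (hP : 0 ≤ P) (hN : 1 ≤ N) (s : Finset ι) {v : ι → V} (hv : ∀ j ∈ s, ‖v j‖ ≤ C) (hC : 0 ≤ C)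
    (c : ι → V × ℝ) (m : ι → ℝ≥0∞) (y z : V × ℝ) :
    pkbSq P N s v c m z ^ (1 - p / 2) * wt (P * (p / 2 - 1)) N (y - z)
      ≤ ENNReal.ofReal ((1 + 2 * C) ^ (P * (p / 2 - 1))) * pkbSq P N s v c m y ^ (1 - p / 2) := by
  have hN0 : 0 < N := by linarith
  have hq : 0 ≤ p / 2 - 1 := by linarith
  have hK0 : (0:ℝ) < 1 + 2 * C := by linarith
  -- Sq y * wt P N (z - y) ≤ K^P * Sq z
  have h1 : pkbSq P N s v c m y * wt P N (y - z) ≤ ENNReal.ofReal ((1 + 2 * C) ^ P) * pkbSq P N s v c m z := by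
    unfold pkbSq
    rw [Finset.sum_mul, Finset.mul_sum]
    refine Finset.sum_le_sum fun j hj => ?_
    have h2 := pkb_env_peetre hP hN (hv j hj) (c j) z y
    have h3 : wt P N (z - y) = wt P N (y - z) := by
      unfold wt
      rw [norm_sub_rev]
    rw [h3] at h2
    calc m j * pkbEnv P N (v j) (c j) y * wt P N (y - z) = m j * (pkbEnv P N (v j) (c j) y * wt P N (y - z)) := by ring
      _ ≤ m j * (ENNReal.ofReal ((1 + 2 * C) ^ P) * pkbEnv P N (v j) (c j) z) := by gcongr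
      _ = _ := by ring
  set q := p / 2 - 1 with hqd
  have e1 : 1 - p / 2 = -q := by rw [hqd]; ring
  rw [e1]
  have hw0 : wt P N (y - z) ≠ 0 := (wt_pos P hN0 _).ne'
  have hwt : wt P N (y - z) ≠ ∞ := ENNReal.ofReal_ne_top
  have hwq : wt (P * q) N (y - z) = wt P N (y - z) ^ q := by
    unfold wt
    rw [ENNReal.ofReal_rpow_of_pos (Real.rpow_pos_of_pos (by positivity) _), ← Real.rpow_mul (by positivity)]
    congr 2
    ring
  have hKq : ENNReal.ofReal ((1 + 2 * C) ^ (P * q)) = ENNReal.ofReal ((1 + 2 * C) ^ P) ^ q := by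
    rw [ENNReal.ofReal_rpow_of_pos (Real.rpow_pos_of_pos hK0 _), ← Real.rpow_mul hK0.le]
  rw [hwq, hKq]
  have hK1 : ENNReal.ofReal ((1 + 2 * C) ^ P) ≠ 0 := by
    simpa using Real.rpow_pos_of_pos hK0 P
  have hK2 : ENNReal.ofReal ((1 + 2 * C) ^ P) ≠ ∞ := ENNReal.ofReal_ne_top
  -- raise h1 to the power q and rearrange
  have h4 := ENNReal.rpow_le_rpow h1 hq
  rw [ENNReal.mul_rpow_of_nonneg _ _ hq, ENNReal.mul_rpow_of_nonneg _ _ hq] at h4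
  rw [ENNReal.rpow_neg, ENNReal.rpow_neg]
  set X := pkbSq P N s v c m z ^ q
  set Y := pkbSq P N s v c m y ^ q
  set w := wt P N (y - z) ^ q
  set K := ENNReal.ofReal ((1 + 2 * C) ^ P) ^ q
  have hw0' : w ≠ 0 := by
    intro h
    rcases (ENNReal.rpow_eq_zero_iff.1 h) with h | h
    · exact hw0 h.1
    · exact hwt h.1
  have hwt' : w ≠ ∞ := ENNReal.rpow_ne_top_of_nonneg hq hwt
  have hK0' : K ≠ 0 := by
    intro h
    rcases (ENNReal.rpow_eq_zero_iff.1 h) with h | h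
    · exact hK1 h.1
    · exact hK2 h.1
  have hKt' : K ≠ ∞ := ENNReal.rpow_ne_top_of_nonneg hq hK2
  -- Y * w ≤ K * X  ⟹  X⁻¹ * w ≤ K * Y⁻¹
  have h5 : (K * X)⁻¹ ≤ (Y * w)⁻¹ := ENNReal.inv_le_inv.2 h4
  rw [ENNReal.mul_inv (Or.inl hK0') (Or.inl hKt'), ENNReal.mul_inv (Or.inr hwt') (Or.inr hw0')] at h5
  calc X⁻¹ * w = K * w * (K⁻¹ * X⁻¹) := by
        rw [show K * w * (K⁻¹ * X⁻¹) = (K * K⁻¹) * (X⁻¹ * w) by ring, ENNReal.mul_inv_cancel hK0' hKt', one_mul]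
    _ ≤ K * w * (Y⁻¹ * w⁻¹) := by gcongr
    _ = K * Y⁻¹ := by
        rw [show K * w * (Y⁻¹ * w⁻¹) = (w * w⁻¹) * (K * Y⁻¹) by ring, ENNReal.mul_inv_cancel hw0' hwt', one_mul]

end

end Claimed.Agent.BD
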