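import Claimed.Agent.R257.PK1.WEnv

/-!
# R257 / PK1 / WFam : operations on packet families (subfamilies, parabolic rescaling, counting, the grouped localised family is robust)      (architect helper136)
-/

set_option autoImplicit false
open MeasureTheory Set Metric
open scoped ENNReal NNReal

namespace Claimed.Agent.BD

noncomputable section

variable {V : Type} [NormedAddCommGroup V] [InnerProductSpace ℝ V] [FiniteDimensional ℝ V] [MeasurableSpace V] [BorelSpace V]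
variable {ι : Type}

/-- **L-PKB-FAM-SUB** (`mult`: `Finset.sum_le_sum_of_subset` on the filters.) -/
theorem PkbFam.subset {W : Submodule ℝ V} {C P' N : ℝ} {s s' : Finset ι} {v : ι → V} {c : ι → V × ℝ} {a : ι → ℝ≥0∞} {f : ι → V × ℝ → ℂ}
    (h : PkbFam W C P' N s v c a f) (hs : s' ⊆ s) : PkbFam W C P' N s' v c a f := by
  classical
  refine ⟨fun j hj => h.bdd j (hs hj), ?_, fun j hj => h.fs j (hs hj), fun j hj => h.dec j (hs hj), fun ξ z => ?_⟩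
  · obtain ⟨e, he⟩ := h.plane
    exact ⟨e, fun j hj => he j (hs hj)⟩
  · exact (Finset.sum_le_sum_of_subset (Finset.filter_subset_filter _ hs)).trans (h.mult ξ z)

/-- `Lam u a b` is onto. -/
theorem pkb_Lam_surj (u : V) {a b : ℝ} (ha : 0 < a) (hb : 0 < b) (z' : V × ℝ) : ∃ z, Lam u a b z = z' := by
  refine ⟨(a⁻¹ • z'.1 - (2 * (b⁻¹ * z'.2)) • u, b⁻¹ * z'.2), ?_⟩
  unfold Lam
  ext
  · simp only [sub_add_cancel, smul_smul, mul_inv_cancel₀ ha.ne', one_smul]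
  · simp only [← mul_assoc, mul_inv_cancel₀ hb.ne', one_mul]

/-- **L-PKB-FAM-RESC** SELF-SIMILARITY of the class.  (`g j` from `FS.unpar (h.fs j hj) u hσ` (choose; `g j = 0` off `s`), `Par_preimage_cap`: `cap (σ⁻¹(v-u)) ((C/N)/σ) ((C/N²)/σ²)`; `bdd`: `‖σ⁻¹(v-u)‖ ≤ 1 ≤ C`; `plane`: `e' = σ⁻¹(e-u)`, `w' = σ⁻¹ w`;
`dec`, `mult`: every `z'` is `Lam u σ σ² z` (`pkb_Lam_surj`), `‖g (Lam z)‖ₑ = ‖f z‖ₑ` (`norm_ch`), `pkb_env_resc`; the filter `‖σ⁻¹(v-u) - ξ'‖ ≤ 1/(σN)` is the filter `‖v - (u + σ ξ')‖ ≤ 1/N`.) -/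
theorem PkbFam.resc {W : Submodule ℝ V} {C P' N σ : ℝ} {s : Finset ι} {v : ι → V} {c : ι → V × ℝ} {a : ι → ℝ≥0∞} {f : ι → V × ℝ → ℂ}
    (h : PkbFam W C P' N s v c a f) (hC : 1 ≤ C) (hN : 0 < N) (hσ : 0 < σ) (u : V) (hu : ∀ j ∈ s, ‖v j - u‖ ≤ σ) :
    ∃ g : ι → V × ℝ → ℂ, PkbFam W C P' (σ * N) s (fun j => σ⁻¹ • (v j - u)) c a g ∧
      ∀ j ∈ s, ∀ z, f j z = ch (pr z (u, ‖u‖ ^ 2)) * g j (Lam u σ (σ ^ 2) z) := by
  classical
  have hex : ∀ j, ∃ G : V × ℝ → ℂ, j ∈ s → (FS (Par u σ ⁻¹' cap (v j) (C / N) (C / N ^ 2)) G ∧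
      ∀ z, f j z = ch (pr z (u, ‖u‖ ^ 2)) * G (Lam u σ (σ ^ 2) z)) := by
    intro j
    by_cases hj : j ∈ s
    · obtain ⟨G, h1, h2⟩ := (h.fs j hj).unpar u hσ
      exact ⟨G, fun _ => ⟨h1, h2⟩⟩
    · exact ⟨0, fun hj' => absurd hj' hj⟩
  choose g hg using hex
  have hnorm : ∀ j ∈ s, ∀ z, ‖g j (Lam u σ (σ ^ 2) z)‖ₑ = ‖f j z‖ₑ := by
    intro j hj z
    rw [(hg j hj).2 z, enorm_mul]
    have : ‖ch (pr z (u, ‖u‖ ^ 2))‖ₑ = 1 := by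
      rw [← ofReal_norm, norm_ch, ENNReal.ofReal_one]
    rw [this, one_mul]
  refine ⟨g, ⟨?_, ?_, ?_, ?_, ?_⟩, fun j hj => (hg j hj).2⟩
  · intro j hj
    rw [norm_smul, norm_inv, Real.norm_eq_abs, abs_of_pos hσ]
    have : σ⁻¹ * ‖v j - u‖ ≤ 1 := by
      rw [inv_mul_le_iff₀ hσ, mul_one]
      exact hu j hj
    linarith
  · obtain ⟨e, he⟩ := h.plane
    refine ⟨σ⁻¹ • (e - u), fun j hj => ?_⟩
    obtain ⟨w, hw, hw'⟩ := he j hj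
    refine ⟨σ⁻¹ • w, W.smul_mem _ hw, ?_⟩
    have e1 : σ⁻¹ • (v j - u) - σ⁻¹ • (e - u) - σ⁻¹ • w = σ⁻¹ • (v j - e - w) := by
      simp only [smul_sub]; abel
    rw [e1, norm_smul, norm_inv, Real.norm_eq_abs, abs_of_pos hσ, inv_mul_le_iff₀ hσ]
    refine hw'.trans (le_of_eq ?_)
    field_simp
  · intro j hj
    have h1 := (hg j hj).1
    rw [Par_preimage_cap u (v j) hσ] at h1
    have e1 : C / N / σ = C / (σ * N) := by field_simp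
    have e2 : C / N ^ 2 / σ ^ 2 = C / (σ * N) ^ 2 := by field_simp
    rwa [e1, e2] at h1
  · intro j hj z'
    obtain ⟨z, rfl⟩ := pkb_Lam_surj u hσ (pow_pos hσ 2) z'
    rw [hnorm j hj z, pkb_env_resc P' hN hσ]
    exact h.dec j hj z
  · intro ξ' z'
    obtain ⟨z, rfl⟩ := pkb_Lam_surj u hσ (pow_pos hσ 2) z'
    have hfil : s.filter (fun j => ‖σ⁻¹ • (v j - u) - ξ'‖ ≤ 1 / (σ * N)) = s.filter (fun j => ‖v j - (u + σ • ξ')‖ ≤ 1 / N) := by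
      refine Finset.filter_congr fun j _ => ?_
      have e1 : σ⁻¹ • (v j - u) - ξ' = σ⁻¹ • (v j - (u + σ • ξ')) := by
        rw [smul_sub, smul_sub, smul_add, smul_smul, inv_mul_cancel₀ hσ.ne', one_smul]; abel
      rw [e1, norm_smul, norm_inv, Real.norm_eq_abs, abs_of_pos hσ, inv_mul_le_iff₀ hσ]
      have e2 : σ * (1 / (σ * N)) = 1 / N := by field_simp
      rw [e2]
    rw [hfil]
    simp only [pkb_env_resc P' hN hσ]
    exact h.mult _ z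

/-- **L-PKB-FAM-COUNT** (`p:count`): (`exists_sep_net 0 (A := C * N) (r := 1 / N)` gives `t` covering the ball of radius `C`, `card_le_of_sep`: `#t ≤ (2 C N + 1)^k`; `∑_{j ∈ s} ≤ ∑_{ξ ∈ t} ∑_{j ∈ filter} ≤ #t * C`.) -/
theorem PkbFam.count {W : Submodule ℝ V} {C P' N : ℝ} {s : Finset ι} {v : ι → V} {c : ι → V × ℝ} {a : ι → ℝ≥0∞} {f : ι → V × ℝ → ℂ}
    (h : PkbFam W C P' N s v c a f) (hC : 0 ≤ C) (hN : 0 < N) (z : V × ℝ) :
    ∑ j ∈ s, pkbEnv P' N (v j) (c j) z ≤ ENNReal.ofReal ((2 * (C * N) + 1) ^ Module.finrank ℝ V * C) := by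
  classical
  have hr : 0 < 1 / N := by positivity
  have hA : 0 ≤ C * N := by positivity
  have hAr : C * N * (1 / N) = C := by field_simp
  obtain ⟨t, ht1, ht2, ht3⟩ := exists_sep_net (0 : V) hA hr
  have hcard := card_le_of_sep hA hr t 0 ht1 ht2
  have hex : ∀ j, ∃ ξ : V, j ∈ s → ξ ∈ t ∧ ‖v j - ξ‖ ≤ 1 / N := by
    intro j
    by_cases hj : j ∈ s
    · obtain ⟨ξ, hξ, hξ'⟩ := ht3 (v j) (by rw [sub_zero, hAr]; exact h.bdd j hj)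
      exact ⟨ξ, fun _ => ⟨hξ, hξ'⟩⟩
    · exact ⟨0, fun hj' => absurd hj' hj⟩
  choose g hg using hex
  calc ∑ j ∈ s, pkbEnv P' N (v j) (c j) z
      = ∑ ξ ∈ t, ∑ j ∈ s.filter (fun j => g j = ξ), pkbEnv P' N (v j) (c j) z :=
        (Finset.sum_fiberwise_of_maps_to (fun j hj => (hg j hj).1) _).symm
    _ ≤ ∑ ξ ∈ t, ∑ j ∈ s.filter (fun j => ‖v j - ξ‖ ≤ 1 / N), pkbEnv P' N (v j) (c j) z := by
        refine Finset.sum_le_sum fun ξ _ => Finset.sum_le_sum_of_subset fun j hj => ?_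
        rw [Finset.mem_filter] at hj ⊢
        exact ⟨hj.1, hj.2 ▸ (hg j hj.1).2⟩
    _ ≤ ∑ _ξ ∈ t, ENNReal.ofReal C := Finset.sum_le_sum fun ξ _ => h.mult ξ z
    _ = ENNReal.ofReal ((t.card : ℝ) * C) := by
        rw [Finset.sum_const, nsmul_eq_mul, ENNReal.ofReal_mul (by positivity), ENNReal.ofReal_natCast]
    _ ≤ _ := ENNReal.ofReal_le_ofReal (mul_le_mul_of_nonneg_right hcard hC)

omit [FiniteDimensional ℝ V] [MeasurableSpace V] [BorelSpace V] [NormedAddCommGroup V] [InnerProductSpace ℝ V] in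
theorem pkbf_scales {N σ : ℝ} (hN : 1 ≤ N) (hσ : 0 < σ) (hσ1 : σ ≤ 1) (hσN : σ⁻¹ ^ 2 ≤ N) :
    1 / N ≤ σ ^ 2 ∧ 1 / N ≤ σ ∧ 1 / N ^ 2 ≤ σ ^ 2 := by
  have hN0 : 0 < N := by linarith
  have h1 : 1 / N ≤ σ ^ 2 := by
    rw [div_le_iff₀ hN0]
    have : σ ^ 2 * σ⁻¹ ^ 2 = 1 := by
      rw [← mul_pow, mul_inv_cancel₀ hσ.ne', one_pow]
    calc (1 : ℝ) = σ ^ 2 * σ⁻¹ ^ 2 := this.symm
      _ ≤ σ ^ 2 * N := by gcongr
  have h2 : σ ^ 2 ≤ σ := by nlinarith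
  refine ⟨h1, h1.trans h2, le_trans ?_ h1⟩
  apply one_div_le_one_div_of_le hN0
  nlinarith

open scoped Classical in
/-- **L-PKB-FAM-ROB** the grouped family is robust at the coarse scale `σ`, `N^(-1/2) ≤ σ ≤ 1`.  (`bdd`: `Grp.rep`; `mult`: `Grp.mult`; `fs`: `FS.sum`, `cap_subset_cap` (`Grp.near`), `cap_mono`: `C/N + σ ≤ (C+1) σ`, `C/N² ≤ (C+1) σ²` because `1/N ≤ σ² ≤ σ`.) -/
theorem PkbFam.rob {W : Submodule ℝ V} {C P' N σ : ℝ} {s : Finset ι} {v : ι → V} {c : ι → V × ℝ} {a : ι → ℝ≥0∞} {f : ι → V × ℝ → ℂ}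
    (h : PkbFam W C P' N s v c a f) (hC : 1 ≤ C) (hN : 1 ≤ N) (hσ : 0 < σ) (hσ1 : σ ≤ 1) (hσN : σ⁻¹ ^ 2 ≤ N) {π : ι → ι}
    (hg : Grp ((3 : ℝ) ^ Module.finrank ℝ V) σ s v π v) :
    Rob (max (C + 1) ((3 : ℝ) ^ Module.finrank ℝ V)) σ (s.image π) v (gsum s π f) := by
  obtain ⟨s1, s2, s3⟩ := pkbf_scales hN hσ hσ1 hσN
  have hC0 : 0 ≤ C := by linarith
  refine ⟨fun J hJ => ?_, fun ξ t ht h' => (hg.mult ξ t ht h').trans (le_max_right _ _), fun J hJ => ?_⟩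
  · obtain ⟨θ, hθ, rfl⟩ := Finset.mem_image.1 hJ
    obtain ⟨θ', hθ', hh⟩ := hg.rep θ hθ
    rw [hh]
    exact (h.bdd θ' hθ').trans ((by linarith : C ≤ C + 1).trans (le_max_left _ _))
  · unfold gsum
    refine FS.sum _ fun θ hθ => ?_
    rw [Finset.mem_filter] at hθ
    have hnear := hg.near θ hθ.1
    rw [hθ.2] at hnear
    refine (h.fs θ hθ.1).mono ((cap_subset_cap hnear).trans (cap_mono ?_ ?_))
    · calc C / N + σ = C * (1 / N) + σ := by ring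
        _ ≤ C * σ + σ := by gcongr
        _ = (C + 1) * σ := by ring
        _ ≤ _ := by gcongr; exact le_max_left _ _
    · calc C / N ^ 2 = C * (1 / N ^ 2) := by ring
        _ ≤ C * σ ^ 2 := by gcongr
        _ ≤ (C + 1) * σ ^ 2 := by gcongr; linarith
        _ ≤ _ := by gcongr; exact le_max_left _ _

open scoped Classical in
/-- **L-PKB-FAM-PLANE** the centres of the groups are labels, hence close to the plane. (`Grp.rep`, `h.plane`, `C / N ≤ C σ ≤ C₂ σ`.) -/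
theorem PkbFam.plane_grp {W : Submodule ℝ V} {C P' N σ : ℝ} {s : Finset ι} {v : ι → V} {c : ι → V × ℝ} {a : ι → ℝ≥0∞} {f : ι → V × ℝ → ℂ}
    (h : PkbFam W C P' N s v c a f) (hC : 1 ≤ C) (hN : 1 ≤ N) (hσ : 0 < σ) (hσ1 : σ ≤ 1) (hσN : σ⁻¹ ^ 2 ≤ N) {π : ι → ι}
    (hg : Grp ((3 : ℝ) ^ Module.finrank ℝ V) σ s v π v) :
    ∃ e : V, ∀ J ∈ s.image π, ∃ w ∈ W, ‖v J - e - w‖ ≤ 7 * max (C + 1) ((3 : ℝ) ^ Module.finrank ℝ V) * σ := by
  obtain ⟨s1, s2, s3⟩ := pkbf_scales hN hσ hσ1 hσN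
  have hC0 : 0 ≤ C := by linarith
  obtain ⟨e, he⟩ := h.plane
  refine ⟨e, fun J hJ => ?_⟩
  obtain ⟨θ, hθ, rfl⟩ := Finset.mem_image.1 hJ
  obtain ⟨θ', hθ', hh⟩ := hg.rep θ hθ
  obtain ⟨w, hw, hw'⟩ := he θ' hθ'
  refine ⟨w, hw, ?_⟩
  rw [hh]
  have hmax : C + 1 ≤ max (C + 1) ((3 : ℝ) ^ Module.finrank ℝ V) := le_max_left _ _
  calc ‖v θ' - e - w‖ ≤ C / N := hw'
    _ = C * (1 / N) := by ring
    _ ≤ C * σ := by gcongr
    _ ≤ 7 * max (C + 1) ((3 : ℝ) ^ Module.finrank ℝ V) * σ := by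
        gcongr
        linarith

end

end Claimed.Agent.BD
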