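import Claimed.Agent.R257.PK1.WFam
import Claimed.Agent.R257.PK1.WAbs

/-!
# R257 / PK1 / WStep : one step of the induction on scales `σ N → N`      (architect helper136)
-/

set_option autoImplicit false
open MeasureTheory Set Metric
open scoped ENNReal NNReal

namespace Claimed.Agent.BD

noncomputable section

variable {V : Type} [NormedAddCommGroup V] [InnerProductSpace ℝ V] [FiniteDimensional ℝ V] [MeasurableSpace V] [BorelSpace V]
variable {ι : Type}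

/-- **L-PKB-CLUSTER** a family of scale `N` whose labels lie in one `σ`-cluster satisfies the estimate with the constant of the scale `σ N`.
(`PkbFam.resc` gives `g`; with `h z' = pkbSq P (σN) s v' c m z' ^ (1-p/2) * ‖∑ g j z'‖ₑ^p`: `h (Lam u σ σ² z) =` the integrand (`pkb_env_resc`, `Finset.mul_sum`, `enorm_mul`, `norm_ch`); `lintegral_Lam`: `∫ = (σ^k σ²)⁻¹ ∫ h`; `(σ^k σ²)⁻¹ (σ N)^(k+2) = N^(k+2)`.) -/
theorem PkbLe.cluster {W : Submodule ℝ V} {p P P' C N σ : ℝ} {A : ℝ≥0∞} (hA : PkbLe W p P P' C (σ * N) A) (hC : 1 ≤ C) (hN : 0 < N) (hσ : 0 < σ)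
    {s : Finset ι} {v : ι → V} {c : ι → V × ℝ} {a m : ι → ℝ≥0∞} {f : ι → V × ℝ → ℂ}
    (h : PkbFam W C P' N s v c a f) (hm : ∀ j ∈ s, m j ≠ 0 ∧ m j ≠ ∞) (u : V) (hu : ∀ j ∈ s, ‖v j - u‖ ≤ σ) :
    ∫⁻ z, pkbSq P N s v c m z ^ (1 - p / 2) * ‖∑ j ∈ s, f j z‖ₑ ^ p
      ≤ A * (ENNReal.ofReal (N ^ (Module.finrank ℝ V + 2)) * ∑ j ∈ s, a j ^ p * m j ^ (1 - p / 2)) := by
  obtain ⟨g, hg, hfg⟩ := h.resc hC hN hσ u hu
  have h1 := hA ι s _ c a m g hg hm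
  have h2 := lintegral_Lam u hσ (pow_pos hσ 2)
    (fun z' => pkbSq P (σ * N) s (fun j => σ⁻¹ • (v j - u)) c m z' ^ (1 - p / 2) * ‖∑ j ∈ s, g j z'‖ₑ ^ p)
  have h3 : ∀ z, pkbSq P (σ * N) s (fun j => σ⁻¹ • (v j - u)) c m (Lam u σ (σ ^ 2) z) ^ (1 - p / 2) * ‖∑ j ∈ s, g j (Lam u σ (σ ^ 2) z)‖ₑ ^ p
      = pkbSq P N s v c m z ^ (1 - p / 2) * ‖∑ j ∈ s, f j z‖ₑ ^ p := by
    intro z
    have e1 : pkbSq P (σ * N) s (fun j => σ⁻¹ • (v j - u)) c m (Lam u σ (σ ^ 2) z) = pkbSq P N s v c m z := by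
      unfold pkbSq
      simp only [pkb_env_resc P hN hσ]
    have e2 : ‖∑ j ∈ s, f j z‖ₑ = ‖∑ j ∈ s, g j (Lam u σ (σ ^ 2) z)‖ₑ := by
      rw [Finset.sum_congr rfl (fun j hj => hfg j hj z), ← Finset.mul_sum, enorm_mul]
      have : ‖ch (pr z (u, ‖u‖ ^ 2))‖ₑ = 1 := by
        rw [← ofReal_norm, norm_ch, ENNReal.ofReal_one]
      rw [this, one_mul]
    rw [e1, e2]
  simp only [h3] at h2
  rw [h2]
  have hk : 0 < σ ^ Module.finrank ℝ V * σ ^ 2 := by positivity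
  calc ENNReal.ofReal ((σ ^ Module.finrank ℝ V * σ ^ 2)⁻¹) * ∫⁻ z', pkbSq P (σ * N) s (fun j => σ⁻¹ • (v j - u)) c m z' ^ (1 - p / 2) * ‖∑ j ∈ s, g j z'‖ₑ ^ p
      ≤ ENNReal.ofReal ((σ ^ Module.finrank ℝ V * σ ^ 2)⁻¹) * (A * (ENNReal.ofReal ((σ * N) ^ (Module.finrank ℝ V + 2)) * ∑ j ∈ s, a j ^ p * m j ^ (1 - p / 2))) :=
        mul_le_mul_right h1 _
    _ = A * ((ENNReal.ofReal ((σ ^ Module.finrank ℝ V * σ ^ 2)⁻¹) * ENNReal.ofReal ((σ * N) ^ (Module.finrank ℝ V + 2))) * ∑ j ∈ s, a j ^ p * m j ^ (1 - p / 2)) := by ring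
    _ = _ := by
        rw [← ENNReal.ofReal_mul (by positivity)]
        congr 3
        rw [mul_pow, pow_add]
        field_simp

open scoped Classical in
/-- from the norm form of decoupling to the `p`-th power form. -/
theorem pkb_dec_pow {p : ℝ} (hp : 0 < p) {κ : Type} (t : Finset κ) (G : V × ℝ → ℂ) (H : κ → V × ℝ → ℂ) (D : ℝ≥0∞)
    (h : nm p G ≤ D * (∑ J ∈ t, nm p (H J) ^ (2 : ℝ)) ^ (1 / 2 : ℝ)) :
    ip p G ≤ D ^ p * (∑ J ∈ t, ip p (H J) ^ (2 / p)) ^ (p / 2) := by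
  have e1 : ip p G = nm p G ^ p := by
    unfold nm
    rw [← ENNReal.rpow_mul, one_div, inv_mul_cancel₀ hp.ne', ENNReal.rpow_one]
  have e2 : ∀ J, nm p (H J) ^ (2 : ℝ) = ip p (H J) ^ (2 / p) := by
    intro J
    unfold nm
    rw [← ENNReal.rpow_mul]
    congr 1
    ring
  rw [e1]
  refine (ENNReal.rpow_le_rpow h hp.le).trans (le_of_eq ?_)
  rw [ENNReal.mul_rpow_of_nonneg _ _ hp.le, ← ENNReal.rpow_mul]
  simp only [e2]
  congr 2
  ring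

open scoped Classical in
/-- **L-PKB-LOCDEC** local decoupling at the centre `z`.  (`exists_eta`; `A₁` from `ip_localize_le hη p E`; the family `gsum s π f J * η(N⁻¹(· - z))` is `Rob (7 C₁) σ` (`PkbFam.rob`, `Rob.localize` with `R = N`), plane condition `PkbFam.plane_grp`;
`DecLeW` gives `nm p (∑) ≤ D (∑ nm²)^(1/2)`, i.e. `ip p (F η_z) ≤ D^p (∑ ip^(2/p))^(p/2)` (as `bdc_pow` in `Lib/BD/Cyl.lean`); `∑_J gsum J = ∑_θ f θ` (`sum_gsum`); `1 ≤ ‖η‖` on the unit ball: `∫_{closedBall z N} |F|^p ≤ ip p (F η_z)`.) -/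
theorem pkb_loc_dec (p E C : ℝ) (hp : 2 ≤ p) (hC : 1 ≤ C) :
    ∃ A₁ : ℝ, 0 ≤ A₁ ∧ ∀ (W : Submodule ℝ V) (P' N σ : ℝ) (D : ℝ≥0∞), 1 ≤ N → 0 < σ → σ ≤ 1 → σ⁻¹ ^ 2 ≤ N →
      DecLeW W p (7 * max (C + 1) ((3 : ℝ) ^ Module.finrank ℝ V)) σ D →
      ∀ (ι : Type) (s : Finset ι) (v : ι → V) (c : ι → V × ℝ) (a : ι → ℝ≥0∞) (f : ι → V × ℝ → ℂ) (π : ι → ι),
        PkbFam W C P' N s v c a f → Grp ((3 : ℝ) ^ Module.finrank ℝ V) σ s v π v → ∀ z : V × ℝ,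
        ∫⁻ y in closedBall z N, ‖∑ j ∈ s, f j y‖ₑ ^ p
          ≤ D ^ p * (∑ J ∈ s.image π, (ENNReal.ofReal (A₁ * N ^ (dd V : ℝ)) * avp p E N (gsum s π f J) z) ^ (2 / p)) ^ (p / 2) := by
  have hp0 : 0 < p := by linarith
  obtain ⟨η, hFS, hge, hdecay, -⟩ := exists_eta V
  obtain ⟨A, hA⟩ := ip_localize_le hdecay p E hp0
  refine ⟨max A 0, le_max_right _ _, ?_⟩
  intro W P' N σ D hN hσ hσ1 hσN hD ι s v c a f π hF hg z
  have hN0 : 0 < N := by linarith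
  have hNd : 0 < N ^ (dd V : ℝ) := Real.rpow_pos_of_pos hN0 _
  have hC₁ : 1 ≤ max (C + 1) ((3 : ℝ) ^ Module.finrank ℝ V) := le_trans (by linarith) (le_max_left _ _)
  have hrob := hF.rob hC hN hσ hσ1 hσN hg
  have hloc := hrob.localize hC₁ hσ hσ1 hσN hFS z
  have hplane := hF.plane_grp hC hN hσ hσ1 hσN hg
  have hdec := hD ι (s.image π) v _ hloc hplane
  have hpow := pkb_dec_pow hp0 (s.image π) _ _ D hdec
  have hsum : (fun y => ∑ J ∈ s.image π, gsum s π f J y * η (N⁻¹ • (y - z)))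
      = fun y => (∑ j ∈ s, f j y) * η (N⁻¹ • (y - z)) := by
    funext y
    rw [← Finset.sum_mul, sum_gsum]
  rw [hsum] at hpow
  calc ∫⁻ y in closedBall z N, ‖∑ j ∈ s, f j y‖ₑ ^ p
      ≤ ∫⁻ y in closedBall z N, ‖(∑ j ∈ s, f j y) * η (N⁻¹ • (y - z))‖ₑ ^ p := by
        refine setLIntegral_mono' measurableSet_closedBall fun y hy => ?_
        rw [mem_closedBall, dist_eq_norm] at hy
        have h2 : ‖N⁻¹ • (y - z)‖ ≤ 1 := by
          rw [norm_smul, norm_inv, Real.norm_of_nonneg hN0.le, inv_mul_le_iff₀ hN0, mul_one]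
          exact hy
        have h3 : (1 : ℝ≥0∞) ≤ ‖η (N⁻¹ • (y - z))‖ₑ := by
          rw [← ofReal_norm]
          exact ENNReal.one_le_ofReal.2 (hge _ h2)
        refine ENNReal.rpow_le_rpow ?_ hp0.le
        rw [enorm_mul]
        calc ‖∑ j ∈ s, f j y‖ₑ = ‖∑ j ∈ s, f j y‖ₑ * 1 := (mul_one _).symm
          _ ≤ _ := mul_le_mul' le_rfl h3
    _ ≤ ip p (fun y => (∑ j ∈ s, f j y) * η (N⁻¹ • (y - z))) := setLIntegral_le_lintegral _ _
    _ ≤ _ := hpow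
    _ ≤ _ := by
        refine mul_le_mul' le_rfl (ENNReal.rpow_le_rpow (Finset.sum_le_sum fun J _ => ?_) (by positivity))
        refine ENNReal.rpow_le_rpow ((hA N (gsum s π f J) z hN0).trans (mul_le_mul' ?_ le_rfl)) (by positivity)
        exact ENNReal.ofReal_le_ofReal (mul_le_mul_of_nonneg_right (le_max_left _ _) hNd.le)

open scoped Classical in
/-- **L-PKB-STEP** ONE STEP OF THE INDUCTION ON SCALES. -/
theorem pkb_step (W : Submodule ℝ V) {p P P' C : ℝ} (hp : 2 ≤ p) (hP : 0 ≤ P) (hC : 1 ≤ C) :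
    ∃ K : ℝ, 0 ≤ K ∧ ∀ (N σ : ℝ) (D A : ℝ≥0∞), 1 ≤ N → 0 < σ → σ ≤ 1 → σ⁻¹ ^ 2 ≤ N →
      DecLeW W p (7 * max (C + 1) ((3 : ℝ) ^ Module.finrank ℝ V)) σ D → PkbLe W p P P' C (σ * N) A →
      PkbLe W p P P' C N (ENNReal.ofReal K * D ^ p * A) := by
  have hE₀ : 0 ≤ P * (p / 2 - 1) := mul_nonneg hP (by linarith)
  have hE₁ : (dd V : ℝ) < (dd V : ℝ) + 1 := by linarith
  obtain ⟨A₁, hA₁0, hA₁⟩ := pkb_loc_dec (V := V) p (P * (p / 2 - 1) + ((dd V : ℝ) + 1)) C hp hC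
  obtain ⟨c₁, hc₁, hT1⟩ := pkb_T1 (V := V) hE₀
  obtain ⟨c₂, hc₂, hT2⟩ := pkb_T2 (V := V) (P * (p / 2 - 1)) hE₁
  set Kp : ℝ := (1 + 2 * C) ^ (P * (p / 2 - 1)) with hKp
  have hKp0 : 0 ≤ Kp := by positivity
  refine ⟨Kp * A₁ * c₂ * Kp / c₁, by positivity, ?_⟩
  intro N σ D A hN hσ hσ1 hσN hD hA ι s v c a m f hF hm
  have hN0 : 0 < N := by linarith
  have hC0 : 0 ≤ C := by linarith
  obtain ⟨π, hg⟩ := exists_grp s v hσ
  -- continuity
  have hfc : ∀ j ∈ s, Continuous (f j) := fun j hj => (hF.fs j hj).continuous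
  have hFc : Continuous fun y => ∑ j ∈ s, f j y := continuous_finsetSum s hfc
  have hgc : ∀ J, Continuous (gsum s π f J) := by
    intro J
    unfold gsum
    exact continuous_finsetSum _ fun θ hθ => hfc θ (Finset.mem_filter.1 hθ).1
  -- notation
  set sJ : ι → Finset ι := fun J => s.filter fun θ => π θ = J with hsJ
  have hsub : ∀ J, sJ J ⊆ s := fun J => Finset.filter_subset _ _
  set u : V × ℝ → ℝ≥0∞ := fun z => pkbSq P N s v c m z ^ (1 - p / 2) with hu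
  set uJ : ι → V × ℝ → ℝ≥0∞ := fun J z => pkbSq P N (sJ J) v c m z ^ (1 - p / 2) with huJ
  have hum : Measurable u := (pkb_measurable_sq P N s v c m).pow_const _
  have huJm : ∀ J, Measurable (uJ J) := fun J => (pkb_measurable_sq P N (sJ J) v c m).pow_const _
  have hGm : Measurable fun y => ‖∑ j ∈ s, f j y‖ₑ ^ p := (hFc.measurable.enorm).pow_const _
  have hup : ∀ y z, u z * wt (P * (p / 2 - 1)) N (y - z) ≤ ENNReal.ofReal Kp * u y :=
    fun y z => pkb_sq_neg_peetre hp hP hN s hF.bdd hC0 c m y z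
  have huJp : ∀ J, ∀ y z, uJ J z * wt (P * (p / 2 - 1)) N (y - z) ≤ ENNReal.ofReal Kp * uJ J y :=
    fun J y z => pkb_sq_neg_peetre hp hP hN (sJ J) (fun j hj => hF.bdd j (hsub J hj)) hC0 c m y z
  set α : ℝ≥0∞ := ENNReal.ofReal (A₁ * N ^ (dd V : ℝ)) with hα
  set E : ℝ := P * (p / 2 - 1) + ((dd V : ℝ) + 1) with hE
  set R₀ : ℝ≥0∞ := ENNReal.ofReal (N ^ (Module.finrank ℝ V + 2)) * ∑ j ∈ s, a j ^ p * m j ^ (1 - p / 2) with hR₀
  -- (1)
  have h1 := hT1 N (ENNReal.ofReal Kp) u (fun y => ‖∑ j ∈ s, f j y‖ₑ ^ p) hN0 hum hGm hup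
  -- (2) pointwise
  have h2 : ∀ z, u z * ∫⁻ y in closedBall z N, ‖∑ j ∈ s, f j y‖ₑ ^ p
      ≤ D ^ p * ∑ J ∈ s.image π, uJ J z * (α * avp p E N (gsum s π f J) z) := by
    intro z
    have h21 := hA₁ W P' N σ D hN hσ hσ1 hσN hD ι s v c a f π hF hg z
    have h22 := pkb_holder hp (s.image π) (fun J => α * avp p E N (gsum s π f J) z) (fun J => pkbSq P N (sJ J) v c m z) (by
      intro J hJ
      obtain ⟨θ, hθ, rfl⟩ := Finset.mem_image.1 hJ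
      have hne : (sJ (π θ)).Nonempty := ⟨θ, Finset.mem_filter.2 ⟨hθ, rfl⟩⟩
      exact ⟨pkb_sq_ne_zero P N hne v c (fun j hj => hm j (hsub _ hj)) z, pkb_sq_ne_top P N _ v c (fun j hj => hm j (hsub _ hj)) z⟩)
    rw [pkb_sq_fiber P N s v c m π z] at h22
    calc u z * ∫⁻ y in closedBall z N, ‖∑ j ∈ s, f j y‖ₑ ^ p
        ≤ u z * (D ^ p * (∑ J ∈ s.image π, (α * avp p E N (gsum s π f J) z) ^ (2 / p)) ^ (p / 2)) := mul_le_mul_right h21 _
      _ = D ^ p * (u z * (∑ J ∈ s.image π, (α * avp p E N (gsum s π f J) z) ^ (2 / p)) ^ (p / 2)) := by ring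
      _ ≤ _ := mul_le_mul_right h22 _
  -- (3), (4)
  have h3 : ∀ J ∈ s.image π, ∫⁻ z, uJ J z * (α * avp p E N (gsum s π f J) z)
      ≤ α * (ENNReal.ofReal c₂ * ENNReal.ofReal Kp * (A * (ENNReal.ofReal (N ^ (Module.finrank ℝ V + 2)) * ∑ j ∈ sJ J, a j ^ p * m j ^ (1 - p / 2)))) := by
    intro J hJ
    have h31 := hT2 N p (ENNReal.ofReal Kp) (uJ J) (gsum s π f J) hN0 (huJm J) (hgc J) (huJp J)
    have h32 : ∫⁻ y, uJ J y * ‖gsum s π f J y‖ₑ ^ p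
        ≤ A * (ENNReal.ofReal (N ^ (Module.finrank ℝ V + 2)) * ∑ j ∈ sJ J, a j ^ p * m j ^ (1 - p / 2)) := by
      refine PkbLe.cluster hA hC hN0 hσ (hF.subset (hsub J)) (fun j hj => hm j (hsub J hj)) (v J) ?_
      intro j hj
      have hj' := Finset.mem_filter.1 hj
      have := hg.near j hj'.1
      rwa [hj'.2] at this
    calc ∫⁻ z, uJ J z * (α * avp p E N (gsum s π f J) z)
        = α * ∫⁻ z, uJ J z * avp p E N (gsum s π f J) z := by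
          have hmm : Measurable fun z => uJ J z * avp p E N (gsum s π f J) z := (huJm J).mul (measurable_avp p E N (hgc J))
          rw [← lintegral_const_mul _ hmm]
          refine lintegral_congr fun z => ?_
          ring
      _ ≤ α * (ENNReal.ofReal c₂ * ENNReal.ofReal Kp * ∫⁻ y, uJ J y * ‖gsum s π f J y‖ₑ ^ p) := mul_le_mul_right h31 _
      _ ≤ _ := mul_le_mul_right (mul_le_mul_right h32 _) _
  have h5 : ∑ J ∈ s.image π, ∑ j ∈ sJ J, a j ^ p * m j ^ (1 - p / 2) = ∑ j ∈ s, a j ^ p * m j ^ (1 - p / 2) :=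
    Finset.sum_fiberwise_of_maps_to (fun j hj => Finset.mem_image_of_mem π hj) _
  have h6 : ∫⁻ z, u z * ∫⁻ y in closedBall z N, ‖∑ j ∈ s, f j y‖ₑ ^ p
      ≤ D ^ p * (α * (ENNReal.ofReal c₂ * ENNReal.ofReal Kp * (A * R₀))) := by
    calc ∫⁻ z, u z * ∫⁻ y in closedBall z N, ‖∑ j ∈ s, f j y‖ₑ ^ p
        ≤ ∫⁻ z, D ^ p * ∑ J ∈ s.image π, uJ J z * (α * avp p E N (gsum s π f J) z) := lintegral_mono h2
      _ = D ^ p * ∑ J ∈ s.image π, ∫⁻ z, uJ J z * (α * avp p E N (gsum s π f J) z) := by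
          have hmm : ∀ J ∈ s.image π, Measurable fun z => uJ J z * (α * avp p E N (gsum s π f J) z) :=
            fun J _ => (huJm J).mul ((measurable_avp p E N (hgc J)).const_mul _)
          rw [lintegral_const_mul _ (Finset.measurable_fun_sum _ hmm), lintegral_finsetSum _ hmm]
      _ ≤ D ^ p * ∑ J ∈ s.image π, α * (ENNReal.ofReal c₂ * ENNReal.ofReal Kp * (A * (ENNReal.ofReal (N ^ (Module.finrank ℝ V + 2)) * ∑ j ∈ sJ J, a j ^ p * m j ^ (1 - p / 2)))) :=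
          mul_le_mul_right (Finset.sum_le_sum h3) _
      _ = _ := by
          simp only [← Finset.mul_sum]
          rw [h5]
  -- conclusion
  have hNd : 0 < N ^ (dd V : ℝ) := Real.rpow_pos_of_pos hN0 _
  have hx0 : ENNReal.ofReal (c₁ * N ^ (dd V : ℝ)) ≠ 0 := by
    rw [Ne, ENNReal.ofReal_eq_zero, not_le]; positivity
  have hxt : ENNReal.ofReal (c₁ * N ^ (dd V : ℝ)) ≠ ∞ := ENNReal.ofReal_ne_top
  have h7 : ENNReal.ofReal (c₁ * N ^ (dd V : ℝ)) * ∫⁻ y, u y * ‖∑ j ∈ s, f j y‖ₑ ^ p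
      ≤ ENNReal.ofReal (c₁ * N ^ (dd V : ℝ)) * (ENNReal.ofReal (Kp * A₁ * c₂ * Kp / c₁) * D ^ p * A * R₀) := by
    refine h1.trans ((mul_le_mul_right h6 _).trans (le_of_eq ?_))
    have e1 : ENNReal.ofReal (c₁ * N ^ (dd V : ℝ)) * ENNReal.ofReal (Kp * A₁ * c₂ * Kp / c₁)
        = ENNReal.ofReal Kp * α * ENNReal.ofReal c₂ * ENNReal.ofReal Kp := by
      rw [hα, ← ENNReal.ofReal_mul (by positivity), ← ENNReal.ofReal_mul (by positivity), ← ENNReal.ofReal_mul (by positivity),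
        ← ENNReal.ofReal_mul (by positivity)]
      congr 1
      field_simp
    calc ENNReal.ofReal Kp * (D ^ p * (α * (ENNReal.ofReal c₂ * ENNReal.ofReal Kp * (A * R₀))))
        = (ENNReal.ofReal Kp * α * ENNReal.ofReal c₂ * ENNReal.ofReal Kp) * (D ^ p * A * R₀) := by ring
      _ = _ := by rw [← e1]; ring
  exact (ENNReal.mul_le_mul_iff_right hx0 hxt).1 h7

end

end Claimed.Agent.BD
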