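import Claimed.Agent.R257.PK1.WBase
import Claimed.Agent.R257.PK1.WStep

/-!
# R257 / PK1 / WMain : iteration and EXIT `pkb_weighted` (= H `p:weighted`, all `κ`-plane cases at once)      (architect helper136)
-/

set_option autoImplicit false
open MeasureTheory Set Metric
open scoped ENNReal NNReal

namespace Claimed.Agent.BD

noncomputable section

variable {V : Type} [NormedAddCommGroup V] [InnerProductSpace ℝ V] [FiniteDimensional ℝ V] [MeasurableSpace V] [BorelSpace V]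

/-- **L-PKB-ITER** `j` steps.  (Induction on `j`; `j = 0`: `pkb_base`; step: `pkb_step` with `σ = N^(-1/2)`, `σ N = N^(1/2) ≥ 1`, `σ⁻² = N`, `D = ofReal (D_η σ^(-η))`, `D^p = ofReal (D_η^p N^(η p/2))`,
`A = ofReal (A_j (N^(1/2))^(e_j))`; `A_{j+1} = K D_η^p A_j` (take `max D_η 0`), `e_{j+1} = e_j/2 + η p/2`.) -/
theorem pkb_iter (W : Submodule ℝ V) {p P P' C η : ℝ} (hp : 2 ≤ p) (hP : 0 ≤ P) (hPP : P ≤ P') (hP' : (dd V : ℝ) < P') (hC : 1 ≤ C)
    (hη : 0 < η) (hdec : DecPowW W p η) (j : ℕ) :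
    ∃ A : ℝ, 0 ≤ A ∧ ∀ N : ℝ, 1 ≤ N →
      PkbLe W p P P' C N (ENNReal.ofReal (A * N ^ ((Module.finrank ℝ V : ℝ) * p / 2 / 2 ^ j + η * p))) := by
  have hp0 : 0 < p := by linarith
  induction j with
  | zero =>
    obtain ⟨K, hK0, hK⟩ := pkb_base W hp hPP hP' (by linarith : (0 : ℝ) ≤ C)
    refine ⟨K, hK0, fun N hN => (hK N hN).mono (ENNReal.ofReal_le_ofReal ?_)⟩
    refine mul_le_mul_of_nonneg_left (Real.rpow_le_rpow_of_exponent_le hN ?_) hK0
    have : 0 ≤ η * p := by positivity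
    simp only [pow_zero, div_one]
    linarith
  | succ j ih =>
    obtain ⟨A, hA0, hA⟩ := ih
    obtain ⟨K, hK0, hK⟩ := pkb_step W (P' := P') hp hP hC
    obtain ⟨D, hD⟩ := hdec (7 * max (C + 1) ((3 : ℝ) ^ Module.finrank ℝ V))
    refine ⟨K * (max D 0) ^ p * A, by positivity, fun N hN => ?_⟩
    have hN0 : 0 < N := by linarith
    set σ : ℝ := N ^ (-(1 / 2 : ℝ)) with hσdef
    have hσ : 0 < σ := Real.rpow_pos_of_pos hN0 _
    have hσ1 : σ ≤ 1 := Real.rpow_le_one_of_one_le_of_nonpos hN (by norm_num)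
    have hσN : σ⁻¹ ^ 2 ≤ N := by
      rw [hσdef, ← Real.rpow_neg hN0.le, ← Real.rpow_natCast, ← Real.rpow_mul hN0.le]
      norm_num
    have hσN' : σ * N = N ^ (1 / 2 : ℝ) := by
      rw [hσdef]
      nth_rewrite 2 [← Real.rpow_one N]
      rw [← Real.rpow_add hN0]
      norm_num
    have hN' : 1 ≤ σ * N := by
      rw [hσN']
      exact Real.one_le_rpow hN (by norm_num)
    have h1 := hK N σ _ _ hN hσ hσ1 hσN (hD σ hσ hσ1) (hA (σ * N) hN')
    refine h1.mono ?_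
    have hDle : ENNReal.ofReal (D * σ ^ (-η)) ≤ ENNReal.ofReal (max D 0 * σ ^ (-η)) :=
      ENNReal.ofReal_le_ofReal (mul_le_mul_of_nonneg_right (le_max_left _ _) (Real.rpow_pos_of_pos hσ _).le)
    have hD0 : 0 ≤ max D 0 := le_max_right _ _
    have e1 : ENNReal.ofReal (max D 0 * σ ^ (-η)) ^ p = ENNReal.ofReal ((max D 0) ^ p * N ^ (η * p / 2)) := by
      rw [ENNReal.ofReal_rpow_of_nonneg (by positivity) hp0.le, Real.mul_rpow hD0 (Real.rpow_pos_of_pos hσ _).le]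
      congr 2
      rw [hσdef, ← Real.rpow_mul hN0.le, ← Real.rpow_mul hN0.le]
      congr 1
      ring
    calc ENNReal.ofReal K * ENNReal.ofReal (D * σ ^ (-η)) ^ p * ENNReal.ofReal (A * (σ * N) ^ ((Module.finrank ℝ V : ℝ) * p / 2 / 2 ^ j + η * p))
        ≤ ENNReal.ofReal K * ENNReal.ofReal (max D 0 * σ ^ (-η)) ^ p * ENNReal.ofReal (A * (σ * N) ^ ((Module.finrank ℝ V : ℝ) * p / 2 / 2 ^ j + η * p)) := by
          gcongr
      _ = ENNReal.ofReal (K * (max D 0) ^ p * A * N ^ ((Module.finrank ℝ V : ℝ) * p / 2 / 2 ^ (j + 1) + η * p)) := by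
          rw [e1, ← ENNReal.ofReal_mul hK0, ← ENNReal.ofReal_mul (by positivity)]
          congr 1
          rw [hσN', ← Real.rpow_mul hN0.le]
          have e2 : N ^ ((Module.finrank ℝ V : ℝ) * p / 2 / 2 ^ (j + 1) + η * p) = N ^ (η * p / 2) * N ^ (1 / 2 * ((Module.finrank ℝ V : ℝ) * p / 2 / 2 ^ j + η * p)) := by
            rw [← Real.rpow_add hN0]
            congr 1
            rw [pow_succ]
            field_simp
            ring
          rw [e2]
          ring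

/-- **EXIT: THE WEIGHTED PACKET ESTIMATE** (H `p:weighted`).  (`pkb_iter` with `η = ε/(2p)` and `j` so large that `k p / 2 / 2^j ≤ ε/2`; `PkbLe.mono`, `Real.rpow_le_rpow_of_exponent_le`.) -/
theorem pkb_weighted (W : Submodule ℝ V) {p P P' C : ℝ} (hp : 2 ≤ p) (hP : 0 ≤ P) (hPP : P ≤ P') (hP' : (dd V : ℝ) < P') (hC : 1 ≤ C)
    (hdec : ∀ η : ℝ, 0 < η → DecPowW W p η) {ε : ℝ} (hε : 0 < ε) :
    ∃ A : ℝ, 0 ≤ A ∧ ∀ N : ℝ, 1 ≤ N → PkbLe W p P P' C N (ENNReal.ofReal (A * N ^ ε)) := by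
  have hp0 : 0 < p := by linarith
  have hη : 0 < ε / (2 * p) := by positivity
  obtain ⟨j, hj⟩ : ∃ j : ℕ, (Module.finrank ℝ V : ℝ) * p / 2 / 2 ^ j ≤ ε / 2 := by
    obtain ⟨j, hj⟩ := pow_unbounded_of_one_lt ((Module.finrank ℝ V : ℝ) * p / 2 / (ε / 2)) (by norm_num : (1 : ℝ) < 2)
    refine ⟨j, ?_⟩
    rw [div_le_iff₀ (by positivity)]
    rw [div_lt_iff₀ (by positivity)] at hj
    linarith
  obtain ⟨A, hA0, hA⟩ := pkb_iter W hp hP hPP hP' hC hη (hdec _ hη) j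
  refine ⟨A, hA0, fun N hN => (hA N hN).mono (ENNReal.ofReal_le_ofReal ?_)⟩
  refine mul_le_mul_of_nonneg_left (Real.rpow_le_rpow_of_exponent_le hN ?_) hA0
  have : ε / (2 * p) * p = ε / 2 := by field_simp
  linarith

end

end Claimed.Agent.BD
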