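import Claimed.Agent.R257.PK1.WOutB

/-!
# R257 / PK1 / WOut : EXITS OF `p:weighted` (H packets.tex l.432-452) IN THE LANGUAGE OF THE PACKET CLASS `R257/Pk/Defs.lean`      (architect helper122)       -- CONSUMERS (PK2, INST, FR1, FR3): READ THIS FILE ONLY

`PkwLe W K C₁ p P r N Cst` : "`Cst` is a constant of the weighted packet estimate at scale `N`": for ALL families `A` of scale `N` of the class `K` (`A.In s K a`) with labels within `C₁/N` of a translate of `W` (`A.Near s W C₁`; `W = ⊤`: `pkw_near_top`),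
all weights `b ≥ 0` (`b T = 0 → a T = 0`) and ALL measures `μ` of unit density `μ(B(z,1)) ≤ M`:
      `∫ sup_{B(z,r)} (B_b²)^(1-p/2) · sup_{B(z,r)} |∑_T f_T|^p dμ(z) ≤ Cst · M · N^(k+2) ∑_T a_T^p b_T^(2-p)`.
Real powers `Real.rpow`: `0^(1-p/2) = 0` for `p > 2`, which is the convention of the paper ("the integrand is zero where the field and `B_b` vanish").

SOURCES
* `pkw_weighted`      : `Cst = C_ε N^ε`  for `2 ≤ p` from decoupling relative to `W` (`∀ η > 0, BD.DecPowW W p η`);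
* `pkw_weighted_top`  : the same for `W = ⊤` from `∀ η > 0, BD.DecPow (E k) p η`  (true for `2 ≤ p ≤ q_k`: exit of `Lib/BD`);
* `pkw_weighted_bot`  : `W = ⊥` (boundedly many frequency slots): every `p ≥ 2`, no hypothesis;
* `pkw_two`           : `p = 2`, `Cst` independent of `N` (NO LOSS), no hypothesis.
CONSEQUENCES of `PkwLe` (any source)
* `PkwLe.vol`    : Lebesgue integral (with suprema);
* `PkwLe.disc`   : finite sets `Y` with at most `m₁` points in every unit ball, SEPARATE witnesses `g z` for the square envelope (`‖g z - z‖ ≤ r`);      `PkwLe.usep` : `USep Y`;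
* `PkwLe.count`  : `#Y ≤ Cst m₁ β^(p-2) λ^(-p) · bud` if `B_b²(g z) ≤ β²`, `|field(z)| ≥ λ` on `Y`.
-/

set_option autoImplicit false
open MeasureTheory Set Metric
open scoped ENNReal NNReal

namespace Claimed.Agent.R257

noncomputable section

variable {k : ℕ}

/-- `Cst` is a constant of the weighted packet estimate at scale `N` (measure form, suprema over `r`-balls). -/
def PkwLe (W : Submodule ℝ (E k)) (K : PCls) (C₁ p P r N Cst : ℝ) : Prop :=
  ∀ (ι : Type) (A : PFam k ι) (s : Finset ι) (a b : ι → ℝ), A.N = N → A.In s K a → A.Near s W C₁ →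
    (∀ T ∈ s, 0 ≤ b T) → (∀ T ∈ s, b T = 0 → a T = 0) →
    ∀ (μ : Measure (ST k)) [SFinite μ] (M : ℝ), 0 ≤ M → (∀ z, μ (closedBall z 1) ≤ ENNReal.ofReal M) →
      ∫⁻ z, (⨆ z' ∈ closedBall z r, ENNReal.ofReal (A.sq P s b z' ^ (1 - p / 2))) * (⨆ z' ∈ closedBall z r, ENNReal.ofReal (‖A.fld s z'‖ ^ p)) ∂μ
        ≤ ENNReal.ofReal (Cst * M * A.bud p s a b)

/-- `ofReal (x^y) ≤ (ofReal x)^y` for `x ≥ 0` and every real `y`. -/
theorem pkw_ofReal_rpow_le {x : ℝ} (hx : 0 ≤ x) (y : ℝ) : ENNReal.ofReal (x ^ y) ≤ ENNReal.ofReal x ^ y := by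
  rcases hx.eq_or_lt with rfl | hx
  · rcases lt_trichotomy y 0 with hy | rfl | hy
    · rw [Real.zero_rpow hy.ne]; simp
    · simp
    · rw [Real.zero_rpow hy.ne']; simp
  · rw [ENNReal.ofReal_rpow_of_pos hx]

/-- **THE ADAPTER** `BD.PkbLe → PkwLe`.
(`C` from `pkw_fam`, `K₀` from `BD.pkw_meas`.  Given the data put `s' = s.filter (b ≠ 0)`; `pkw_sq_filter`, `pkw_fld_filter`, `pkw_bud_filter` reduce to `s'` (`In.subset`), where `0 < b`.  Apply `pkw_meas` to `μ.map pkwR` (`pkwRe.lintegral_map`-type change of variables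
`MeasurableEquiv.lintegral_map_equiv`/`lintegral_map_equiv`; density: `Measure.map_apply`, `pkw_R_closedBall`), `m T = ofReal (b T ^ 2)`.  Suprema: reindex `z' ↦ pkwR z'` (`pkw_R_closedBall`), `pkw_sq_R`, `ENNReal.ofReal_rpow_of_pos` if `A.sq > 0`
(if `s' = ∅` both sides vanish: the field is `0`, `p > 0`), `(⨆ ‖F‖ₑ)^p = ⨆ ofReal (‖F‖^p)` (`ENNReal.monotone_rpow_of_nonneg`... or only `≤` through `iSup₂_le` + `le_iSup₂`).  Right side: `pkw_bud_R`.) -/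
theorem pkw_adapt (W : Submodule ℝ (E k)) (K : PCls) (C₁ : ℝ) {p P r : ℝ} (hp : 2 ≤ p) (hP : 0 ≤ P) (hP' : (k : ℝ) + 1 < K.P') (hr : 0 ≤ r) :
    ∃ C : ℝ, 1 ≤ C ∧ ∃ K₀ : ℝ, 0 ≤ K₀ ∧ ∀ N A₀ : ℝ, 1 ≤ N → 0 ≤ A₀ →
      BD.PkbLe W p P K.P' C N (ENNReal.ofReal A₀) → PkwLe W K C₁ p P r N (K₀ * A₀) := by
  classical
  obtain ⟨C, hC, hfam⟩ := pkw_fam k K C₁ hP'
  obtain ⟨K₀, hK₀, hmeas⟩ := BD.pkw_meas (V := E k) W (P' := K.P') hp hP hC hr
  refine ⟨C, hC, K₀, hK₀, ?_⟩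
  intro N A₀ hN hA₀ hle ι A s a b hAN hIn hNear hb hab μ _ M hM hμ
  subst hAN
  have hp0 : 0 < p := by linarith
  have hsub : s.filter (fun T => b T ≠ 0) ⊆ s := Finset.filter_subset _ _
  have hIn' : A.In (s.filter fun T => b T ≠ 0) K a := hIn.subset hsub
  have hNear' : A.Near (s.filter fun T => b T ≠ 0) W C₁ := by
    obtain ⟨e, he⟩ := hNear
    exact ⟨e, fun T hT => he T (hsub hT)⟩
  have hfam' := hfam W ι A _ a hIn' hNear'
  have hb' : ∀ T ∈ s.filter (fun T => b T ≠ 0), 0 < b T := fun T hT =>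
    lt_of_le_of_ne (hb T (hsub hT)) (Ne.symm (Finset.mem_filter.1 hT).2)
  have hm : ∀ T ∈ s.filter (fun T => b T ≠ 0), ENNReal.ofReal (b T ^ 2) ≠ 0 ∧ ENNReal.ofReal (b T ^ 2) ≠ ∞ := fun T hT =>
    ⟨(ENNReal.ofReal_pos.2 (pow_pos (hb' T hT) 2)).ne', ENNReal.ofReal_ne_top⟩
  have hμ' : ∀ z, (μ.map pkwRe) (closedBall z 1) ≤ ENNReal.ofReal M := fun z => by
    rw [Measure.map_apply pkwRe.measurable measurableSet_closedBall]
    exact (le_of_eq (congrArg μ (pkw_R_closedBall z 1))).trans (hμ _)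
  have key := hmeas A.N (ENNReal.ofReal A₀) hN hle (μ.map pkwRe) (ENNReal.ofReal M) hμ' ι _ A.v _ _ (fun T => ENNReal.ofReal (b T ^ 2)) _ hfam' hm
  rw [pkw_bud_R A (by linarith) hp0.le _ (fun T hT => hIn'.amp_nonneg hT) hb', pkw_bud_filter A hp0 s hab, lintegral_map_equiv] at key
  refine (lintegral_mono fun z => ?_).trans (key.trans (le_of_eq ?_))
  · refine mul_le_mul' (iSup₂_le fun z' hz' => ?_) (iSup₂_le fun z' hz' => ?_)
    · have hz'' : pkwR z' ∈ closedBall (pkwRe z) r := by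
        have : z' ∈ pkwR ⁻¹' closedBall (pkwR z) r := by rw [pkw_R_closedBall, pkw_R_R]; exact hz'
        exact this
      refine le_trans ?_ (le_iSup₂ (f := fun z' _ => BD.pkbSq P A.N (s.filter fun T => b T ≠ 0) A.v (fun T => pkwR (A.u T)) (fun T => ENNReal.ofReal (b T ^ 2)) z' ^ (1 - p / 2)) (pkwR z') hz'')
      rw [pkw_sq_R, pkw_sq_filter]
      exact pkw_ofReal_rpow_le (pkw_sq_nonneg A P s b z') _
    · have hz'' : pkwR z' ∈ closedBall (pkwRe z) r := by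
        have : z' ∈ pkwR ⁻¹' closedBall (pkwR z) r := by rw [pkw_R_closedBall, pkw_R_R]; exact hz'
        exact this
      rw [← ENNReal.ofReal_rpow_of_nonneg (norm_nonneg _) hp0.le, ofReal_norm]
      refine ENNReal.rpow_le_rpow ?_ hp0.le
      refine le_trans (le_of_eq ?_) (le_iSup₂ (f := fun z' _ => ‖∑ j ∈ s.filter (fun T => b T ≠ 0), A.pk j (pkwR z')‖ₑ) (pkwR z') hz'')
      rw [pkw_R_R, ← pkw_fld_filter hIn hab z']
      rfl
  · rw [← ENNReal.ofReal_mul hK₀, ← ENNReal.ofReal_mul (by positivity), ← ENNReal.ofReal_mul (by positivity)]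
    congr 1
    ring

theorem pkw_bud_nonneg {ι : Type} {A : PFam k ι} {s : Finset ι} {K : PCls} {a b : ι → ℝ} {p : ℝ} (hA : A.In s K a) (hb : ∀ T ∈ s, 0 ≤ b T) :
    0 ≤ A.bud p s a b := by
  unfold PFam.bud
  have hN : 0 ≤ A.N := by linarith [hA.one_le]
  exact mul_nonneg (Real.rpow_nonneg hN _) (Finset.sum_nonneg fun T hT =>
    mul_nonneg (Real.rpow_nonneg (hA.amp_nonneg hT) _) (Real.rpow_nonneg (hb T hT) _))

theorem PkwLe.mono {W : Submodule ℝ (E k)} {K : PCls} {C₁ p P r N Cst Cst' : ℝ} (h : PkwLe W K C₁ p P r N Cst) (hC : Cst ≤ Cst') :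
    PkwLe W K C₁ p P r N Cst' := by
  intro ι A s a b hN hA hW hb hab μ _ M hM hμ
  refine (h ι A s a b hN hA hW hb hab μ M hM hμ).trans (ENNReal.ofReal_le_ofReal ?_)
  have hbud : 0 ≤ A.bud p s a b := pkw_bud_nonneg hA hb
  gcongr

/-- **EXIT X1-X3 (`p:weighted`, all `κ`-plane cases).** -/
theorem pkw_weighted (W : Submodule ℝ (E k)) (K : PCls) (C₁ : ℝ) {p P r ε : ℝ} (hp : 2 ≤ p) (hP : 0 ≤ P) (hPP : P ≤ K.P') (hP' : (k : ℝ) + 1 < K.P') (hr : 0 ≤ r)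
    (hdec : ∀ η : ℝ, 0 < η → BD.DecPowW W p η) (hε : 0 < ε) :
    ∃ Cst : ℝ, 0 ≤ Cst ∧ ∀ N : ℝ, 1 ≤ N → PkwLe W K C₁ p P r N (Cst * N ^ ε) := by
  obtain ⟨C, hC, K₀, hK₀, had⟩ := pkw_adapt W K C₁ hp hP hP' hr
  have hd : ((BD.dd (E k) : ℕ) : ℝ) < K.P' := by
    simp only [BD.dd, finrank_euclideanSpace, Fintype.card_fin]
    push_cast
    exact hP'
  obtain ⟨A, hA, hle⟩ := BD.pkb_weighted W hp hP hPP hd hC hdec hε
  refine ⟨K₀ * A, mul_nonneg hK₀ hA, fun N hN => ?_⟩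
  have := had N (A * N ^ ε) hN (mul_nonneg hA (Real.rpow_nonneg (by linarith) _)) (hle N hN)
  rwa [← mul_assoc] at this

/-- the full case from decoupling for the paraboloid in `E k`. -/
theorem pkw_weighted_top (K : PCls) (C₁ : ℝ) {p P r ε : ℝ} (hp : 2 ≤ p) (hP : 0 ≤ P) (hPP : P ≤ K.P') (hP' : (k : ℝ) + 1 < K.P') (hr : 0 ≤ r)
    (hdec : ∀ η : ℝ, 0 < η → BD.DecPow (E k) p η) (hε : 0 < ε) :
    ∃ Cst : ℝ, 0 ≤ Cst ∧ ∀ N : ℝ, 1 ≤ N → PkwLe (⊤ : Submodule ℝ (E k)) K C₁ p P r N (Cst * N ^ ε) :=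
  pkw_weighted ⊤ K C₁ hp hP hPP hP' hr (fun η hη => (hdec η hη).toW ⊤) hε

/-- the zero dimensional case: every `p ≥ 2`. -/
theorem pkw_weighted_bot (K : PCls) (C₁ : ℝ) {p P r ε : ℝ} (hp : 2 ≤ p) (hP : 0 ≤ P) (hPP : P ≤ K.P') (hP' : (k : ℝ) + 1 < K.P') (hr : 0 ≤ r) (hε : 0 < ε) :
    ∃ Cst : ℝ, 0 ≤ Cst ∧ ∀ N : ℝ, 1 ≤ N → PkwLe (⊥ : Submodule ℝ (E k)) K C₁ p P r N (Cst * N ^ ε) :=
  pkw_weighted ⊥ K C₁ hp hP hPP hP' hr (fun _ hη => BD.pkw_dec_bot (by linarith) hη.le) hε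

/-- **EXIT X4: `p = 2` WITHOUT LOSS.** -/
theorem pkw_two (W : Submodule ℝ (E k)) (K : PCls) (C₁ : ℝ) {P r : ℝ} (hP : 0 ≤ P) (hP' : (k : ℝ) + 1 < K.P') (hr : 0 ≤ r) :
    ∃ Cst : ℝ, 0 ≤ Cst ∧ ∀ N : ℝ, 1 ≤ N → PkwLe W K C₁ 2 P r N Cst := by
  obtain ⟨C, hC, K₀, hK₀, had⟩ := pkw_adapt W K C₁ (le_refl (2 : ℝ)) hP hP' hr
  have hd : ((BD.dd (E k) : ℕ) : ℝ) < K.P' := by
    simp only [BD.dd, finrank_euclideanSpace, Fintype.card_fin]
    push_cast
    exact hP'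
  obtain ⟨A, hA, hle⟩ := BD.pkw_l2 W (P := P) hd (by linarith : (0 : ℝ) ≤ C)
  exact ⟨K₀ * A, mul_nonneg hK₀ hA, fun N hN => had N A hN hA (hle N hN)⟩

/-! ## consequences -/

/-- **L-PKW-VOL** Lebesgue measure.  (`μ = volume`, `M = c₁` of `BD.exists_volume_closedBall` at `R = 1`.) -/
theorem PkwLe.vol (k : ℕ) : ∃ c₁ : ℝ, 0 < c₁ ∧ ∀ (W : Submodule ℝ (E k)) (K : PCls) (C₁ p P r N Cst : ℝ), PkwLe W K C₁ p P r N Cst →
    ∀ (ι : Type) (A : PFam k ι) (s : Finset ι) (a b : ι → ℝ), A.N = N → A.In s K a → A.Near s W C₁ →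
    (∀ T ∈ s, 0 ≤ b T) → (∀ T ∈ s, b T = 0 → a T = 0) →
      ∫⁻ z, (⨆ z' ∈ closedBall z r, ENNReal.ofReal (A.sq P s b z' ^ (1 - p / 2))) * (⨆ z' ∈ closedBall z r, ENNReal.ofReal (‖A.fld s z'‖ ^ p))
        ≤ ENNReal.ofReal (Cst * c₁ * A.bud p s a b) := by
  obtain ⟨c₁, hc₁, hvol⟩ := BD.exists_volume_closedBall (V := E k)
  refine ⟨c₁, hc₁, ?_⟩
  intro W K C₁ p P r N Cst h ι A s a b hN hA hW hb hab
  refine h ι A s a b hN hA hW hb hab volume c₁ hc₁.le fun z => ?_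
  rw [hvol z 1 one_pos, Real.one_rpow, mul_one]

open scoped Classical in
/-- **L-PKW-DISC** DISCRETE FORM, separate witnesses.  (`μ = ∑ z ∈ Y, Measure.dirac z` (finite measure); `lintegral_finset_sum_measure`, `lintegral_dirac`; `μ (closedBall z₀ 1) = #filter` (`Measure.finsetSum_apply`, `Measure.dirac_apply'`, `Finset.sum_indicator..`/`Finset.card_filter`);
`le_iSup₂` at `g z` and at `z`; back to `ℝ` by `ENNReal.ofReal_le_ofReal_iff` (the right side is `≥ 0` when `0 ≤ Cst`; amplitudes `≥ 0` by `In.amp_nonneg`), `ENNReal.ofReal_sum_of_nonneg`, `ENNReal.ofReal_mul`.) -/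
theorem PkwLe.disc {W : Submodule ℝ (E k)} {K : PCls} {C₁ p P r N Cst : ℝ} (h : PkwLe W K C₁ p P r N Cst) (hC : 0 ≤ Cst) (hr : 0 ≤ r)
    {ι : Type} {A : PFam k ι} {s : Finset ι} {a b : ι → ℝ} (hN : A.N = N) (hA : A.In s K a) (hW : A.Near s W C₁)
    (hb : ∀ T ∈ s, 0 ≤ b T) (hab : ∀ T ∈ s, b T = 0 → a T = 0)
    (Y : Finset (ST k)) (m₁ : ℕ) (hY : ∀ z₀ : ST k, (Y.filter fun z => ‖z - z₀‖ ≤ 1).card ≤ m₁) (g : ST k → ST k) (hg : ∀ z ∈ Y, ‖g z - z‖ ≤ r) :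
    ∑ z ∈ Y, A.sq P s b (g z) ^ (1 - p / 2) * ‖A.fld s z‖ ^ p ≤ Cst * m₁ * A.bud p s a b := by
  have hμ : ∀ z₀ : ST k, (∑ z ∈ Y, Measure.dirac z) (closedBall z₀ 1) ≤ ENNReal.ofReal (m₁ : ℝ) := by
    intro z₀
    rw [Measure.finsetSum_apply, ENNReal.ofReal_natCast]
    have e : ∑ z ∈ Y, (Measure.dirac z) (closedBall z₀ 1) = ((Y.filter fun z => ‖z - z₀‖ ≤ 1).card : ℝ≥0∞) := by
      rw [Finset.card_filter]
      push_cast
      refine Finset.sum_congr rfl fun z _ => ?_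
      rw [Measure.dirac_apply' _ measurableSet_closedBall]
      by_cases hz : ‖z - z₀‖ ≤ 1
      · rw [if_pos hz]
        exact indicator_of_mem (by simpa [dist_eq_norm] using hz) _
      · rw [if_neg hz]
        exact indicator_of_notMem (by simpa [dist_eq_norm] using hz) _
    rw [e]
    exact_mod_cast hY z₀
  have key := h ι A s a b hN hA hW hb hab (∑ z ∈ Y, Measure.dirac z) (m₁ : ℝ) (Nat.cast_nonneg _) hμ
  rw [lintegral_finsetSum_measure] at key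
  simp only [lintegral_dirac] at key
  have hbud : 0 ≤ A.bud p s a b := pkw_bud_nonneg hA hb
  have hnn : ∀ z ∈ Y, 0 ≤ A.sq P s b (g z) ^ (1 - p / 2) * ‖A.fld s z‖ ^ p := fun z _ =>
    mul_nonneg (Real.rpow_nonneg (pkw_sq_nonneg A P s b _) _) (Real.rpow_nonneg (norm_nonneg _) _)
  rw [← ENNReal.ofReal_le_ofReal_iff (by positivity), ENNReal.ofReal_sum_of_nonneg hnn]
  refine le_trans (Finset.sum_le_sum fun z hz => ?_) key
  rw [ENNReal.ofReal_mul (Real.rpow_nonneg (pkw_sq_nonneg A P s b _) _)]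
  refine mul_le_mul' ?_ ?_
  · exact le_iSup₂ (f := fun z' _ => ENNReal.ofReal (A.sq P s b z' ^ (1 - p / 2))) (g z) (by simpa [dist_eq_norm] using hg z hz)
  · exact le_iSup₂ (f := fun z' _ => ENNReal.ofReal (‖A.fld s z'‖ ^ p)) z (by simpa using hr)

open scoped Classical in
/-- **L-PKW-USEP** a `1`-separated set has at most `5^(k+1)` points in a unit ball.  (Volume packing in `ST k`: the balls `ball z (1/2)`, `z ∈ Y ∩ closedBall z₀ 1`, are disjoint and contained in `closedBall z₀ (3/2)`; `BD.exists_volume_closedBall`; or copy `BD.card_le_of_sep`, which is stated for `V`.) -/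
theorem pkw_usep_card {Y : Finset (ST k)} (hY : USep Y) (z₀ : ST k) : (Y.filter fun z => ‖z - z₀‖ ≤ 1).card ≤ 5 ^ (k + 1) := by
  obtain ⟨c, hc, hvol⟩ := BD.exists_volume_closedBall (V := E k)
  set t := Y.filter fun z => ‖z - z₀‖ ≤ 1 with ht
  have hdd : BD.dd (E k) = k + 1 := by simp [BD.dd]
  have hdisj : (↑t : Set (ST k)).PairwiseDisjoint fun z => closedBall z (1 / 3 : ℝ) := by
    intro z hz z' hz' hne
    refine Set.disjoint_left.2 fun w hw hw' => ?_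
    have h1 := hY z (Finset.mem_filter.1 hz).1 z' (Finset.mem_filter.1 hz').1 hne
    rw [mem_closedBall, dist_eq_norm] at hw hw'
    have h2 : ‖z - z'‖ ≤ ‖w - z‖ + ‖w - z'‖ := by
      have : z - z' = (w - z') - (w - z) := by abel
      rw [this, add_comm]
      exact norm_sub_le _ _
    linarith
  have hsub : (⋃ z ∈ t, closedBall z (1 / 3 : ℝ)) ⊆ closedBall z₀ (4 / 3 : ℝ) := by
    intro w hw
    simp only [mem_iUnion, exists_prop] at hw
    obtain ⟨z, hz, hw⟩ := hw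
    have h1 := (Finset.mem_filter.1 hz).2
    rw [mem_closedBall, dist_eq_norm] at hw ⊢
    have : w - z₀ = (w - z) + (z - z₀) := by abel
    rw [this]
    exact (norm_add_le _ _).trans (by linarith)
  have h1 := measure_mono (μ := (volume : Measure (ST k))) hsub
  rw [measure_biUnion_finset hdisj (fun _ _ => measurableSet_closedBall), hvol z₀ _ (by norm_num)] at h1
  simp only [hvol _ (1 / 3 : ℝ) (by norm_num), Finset.sum_const, nsmul_eq_mul] at h1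
  rw [← ENNReal.ofReal_natCast, ← ENNReal.ofReal_mul (Nat.cast_nonneg _), ENNReal.ofReal_le_ofReal_iff (by positivity), hdd,
    Real.rpow_natCast, Real.rpow_natCast] at h1
  have h2 : (t.card : ℝ) ≤ 4 ^ (k + 1) := by
    have e : (4 / 3 : ℝ) ^ (k + 1) = 4 ^ (k + 1) * (1 / 3) ^ (k + 1) := by
      rw [← mul_pow]
      norm_num
    rw [e] at h1
    have h3 : (0 : ℝ) < c * (1 / 3) ^ (k + 1) := by positivity
    have h4 : (t.card : ℝ) * (c * (1 / 3) ^ (k + 1)) ≤ 4 ^ (k + 1) * (c * (1 / 3) ^ (k + 1)) := by linarith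
    exact le_of_mul_le_mul_right h4 h3
  have h3 : (t.card : ℝ) ≤ ((5 ^ (k + 1) : ℕ) : ℝ) := by
    push_cast
    exact h2.trans (pow_le_pow_left₀ (by norm_num) (by norm_num) _)
  exact_mod_cast h3

/-- the discrete form for `USep` sets. -/
theorem PkwLe.usep {W : Submodule ℝ (E k)} {K : PCls} {C₁ p P r N Cst : ℝ} (h : PkwLe W K C₁ p P r N Cst) (hC : 0 ≤ Cst) (hr : 0 ≤ r)
    {ι : Type} {A : PFam k ι} {s : Finset ι} {a b : ι → ℝ} (hN : A.N = N) (hA : A.In s K a) (hW : A.Near s W C₁)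
    (hb : ∀ T ∈ s, 0 ≤ b T) (hab : ∀ T ∈ s, b T = 0 → a T = 0)
    (Y : Finset (ST k)) (hY : USep Y) (g : ST k → ST k) (hg : ∀ z ∈ Y, ‖g z - z‖ ≤ r) :
    ∑ z ∈ Y, A.sq P s b (g z) ^ (1 - p / 2) * ‖A.fld s z‖ ^ p ≤ Cst * (5 ^ (k + 1) : ℕ) * A.bud p s a b := by
  classical
  exact h.disc hC hr hN hA hW hb hab Y (5 ^ (k + 1)) (fun z₀ => by convert pkw_usep_card hY z₀) g hg

open scoped Classical in
/-- **L-PKW-COUNT** COUNTING FORM (H packets l.970, frame l.136).  (`PkwLe.disc`; every term is `≥ (β²)^(1-p/2) lam^p = β^(2-p) lam^p`: `0 < A.sq ≤ β²` (positivity: the field is `≠ 0` at `z`, so some `a T ≠ 0`, so some `b T ≠ 0`; `pkw_w_pos`), `Real.rpow_le_rpow_of_nonpos`.) -/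
theorem PkwLe.count {W : Submodule ℝ (E k)} {K : PCls} {C₁ p P r N Cst : ℝ} (h : PkwLe W K C₁ p P r N Cst) (hp : 2 ≤ p) (hC : 0 ≤ Cst) (hr : 0 ≤ r)
    {ι : Type} {A : PFam k ι} {s : Finset ι} {a b : ι → ℝ} (hN : A.N = N) (hA : A.In s K a) (hW : A.Near s W C₁)
    (hb : ∀ T ∈ s, 0 ≤ b T) (hab : ∀ T ∈ s, b T = 0 → a T = 0)
    (Y : Finset (ST k)) (m₁ : ℕ) (hY : ∀ z₀ : ST k, (Y.filter fun z => ‖z - z₀‖ ≤ 1).card ≤ m₁) (g : ST k → ST k) (hg : ∀ z ∈ Y, ‖g z - z‖ ≤ r)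
    {β lam : ℝ} (hβ : 0 < β) (hlam : 0 < lam) (hsq : ∀ z ∈ Y, A.sq P s b (g z) ≤ β ^ 2) (hfld : ∀ z ∈ Y, lam ≤ ‖A.fld s z‖) :
    (Y.card : ℝ) ≤ Cst * m₁ * β ^ (p - 2) * lam ^ (-p) * A.bud p s a b := by
  have hp0 : 0 < p := by linarith
  have hdisc := h.disc hC hr hN hA hW hb hab Y m₁ hY g hg
  have hterm : ∀ z ∈ Y, β ^ (2 - p) * lam ^ p ≤ A.sq P s b (g z) ^ (1 - p / 2) * ‖A.fld s z‖ ^ p := by
    intro z hz
    have hf : A.fld s z ≠ 0 := by
      intro h0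
      have := hfld z hz
      rw [h0, norm_zero] at this
      linarith
    have hpos : 0 < A.sq P s b (g z) := by
      have hex : ∃ T ∈ s, A.pk T z ≠ 0 := by
        by_contra hcon
        push Not at hcon
        exact hf (Finset.sum_eq_zero hcon)
      obtain ⟨T, hT, hpk⟩ := hex
      have hbT : b T ≠ 0 := by
        intro hb0
        have ha := hab T hT hb0
        have := hA.decay T hT (natX A.N (A.v T) z)
        rw [ha, zero_mul] at this
        apply hpk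
        unfold PFam.pk
        rw [norm_le_zero_iff.1 this, mul_zero]
      unfold PFam.sq
      refine Finset.sum_pos' (fun T _ => mul_nonneg (sq_nonneg _) (pkw_w_pos A P T _).le) ⟨T, hT, ?_⟩
      exact mul_pos (by positivity) (pkw_w_pos A P T _)
    have h1 : (β ^ 2) ^ (1 - p / 2) ≤ A.sq P s b (g z) ^ (1 - p / 2) :=
      Real.rpow_le_rpow_of_nonpos hpos (hsq z hz) (by linarith)
    have e1 : (β ^ 2) ^ (1 - p / 2) = β ^ (2 - p) := by
      rw [← Real.rpow_natCast, ← Real.rpow_mul hβ.le]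
      congr 1
      push_cast
      ring
    rw [e1] at h1
    have h2 : lam ^ p ≤ ‖A.fld s z‖ ^ p := Real.rpow_le_rpow hlam.le (hfld z hz) hp0.le
    exact mul_le_mul h1 h2 (by positivity) (Real.rpow_nonneg hpos.le _)
  have hsum : (Y.card : ℝ) * (β ^ (2 - p) * lam ^ p) ≤ Cst * m₁ * A.bud p s a b := by
    refine le_trans ?_ hdisc
    rw [← nsmul_eq_mul, ← Finset.sum_const]
    exact Finset.sum_le_sum hterm
  have e2 : β ^ (p - 2) * lam ^ (-p) * (β ^ (2 - p) * lam ^ p) = 1 := by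
    have : β ^ (p - 2) * lam ^ (-p) * (β ^ (2 - p) * lam ^ p) = (β ^ (p - 2) * β ^ (2 - p)) * (lam ^ (-p) * lam ^ p) := by ring
    rw [this, ← Real.rpow_add hβ, ← Real.rpow_add hlam]
    simp
  calc (Y.card : ℝ) = (Y.card : ℝ) * (β ^ (2 - p) * lam ^ p) * (β ^ (p - 2) * lam ^ (-p)) := by
        rw [mul_assoc, mul_comm (β ^ (2 - p) * lam ^ p), e2, mul_one]
    _ ≤ Cst * m₁ * A.bud p s a b * (β ^ (p - 2) * lam ^ (-p)) := by
        gcongr
    _ = _ := by ring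

/-- Stores the on-demand equation lemmas of the definitions above in THIS module (rule 6 hygiene). -/
theorem pkw_out_forced : True := by
  have := @PkwLe.eq_1
  trivial

end

end Claimed.Agent.R257
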