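import Claimed.Agent.R257.PK1.WMain
import Claimed.Agent.Lib.BD.Loc

/-!
# R257 / PK1 / WOutA : ADAPTERS of `pkb_weighted`, part A (language of `Lib/BD`, abstract `V`)      (architect helper122)

* `pkw_meas` : from the LEBESGUE integral to ANY measure `μ` with `μ(B(z,1)) ≤ M` (counting measures of separated sets, Lebesgue measure, fractal measures ...), with SUPREMA over `r`-balls of BOTH factors
  ("unit suprema", "separate witnesses for the square envelope and for the field", "fixed enlargements" of H `p:conventions`).  The constant of `PkbLe` is only multiplied by `K M`.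
  Proof: `F = ∑ f_T` has Fourier support in a fixed ball (`PkbFam.fs_ball`), so `sup_{B(z,r)} |F|^p ≤ A₀ avp p E 1 F z` (`pkw_sup_le`); `Sq^(1-p/2)` varies slowly (`pkw_sq_sup_le`, `pkb_sq_neg_peetre`);
  Tonelli against `μ` (`pkw_T2mu`) with `∫ (1+|y-z|)^(-E₁) dμ(z) ≤ c M` (`pkw_mu_wt`).
* `pkw_l2` : the exponent `p = 2` WITHOUT loss (`L²` orthogonality of the frequency slots `orth` + Cauchy-Schwarz in every slot).
* `pkw_dec_bot` : the zero dimensional case `W = ⊥`: decoupling is trivial for every `p ≥ 1` (boundedly many caps).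
-/

set_option autoImplicit false
open MeasureTheory Set Metric
open scoped ENNReal NNReal

namespace Claimed.Agent.BD

noncomputable section

variable {V : Type} [NormedAddCommGroup V] [InnerProductSpace ℝ V] [FiniteDimensional ℝ V] [MeasurableSpace V] [BorelSpace V]
variable {ι : Type}

/-- **L-PKW-MUWT** a measure with bounded unit density integrates the weights of order `> d`.
(For `‖z - z'‖ ≤ 1`: `wt E 1 (y - z) * ofReal (2^(-E)) ≤ wt E 1 (y - z')` (`wt_peetre`, `wt_ge_of_le` with `A = 1`).  Hence `c₁ 2^(-E) wt E 1 (y - z) ≤ ∫⁻ z' in closedBall z 1, wt E 1 (y - z')`, `c₁ = vol B(0,1)` (`exists_volume_closedBall`).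
Integrate `dμ(z)`, Tonelli (`lintegral_lintegral_swap`, indicator of `{‖z - z'‖ ≤ 1}`, which is a closed subset of the product): `= ∫⁻ z', wt E 1 (y - z') μ(closedBall z' 1) ≤ M ∫ wt = M c` (`exists_lintegral_wt`, `lintegral_sub_left_eq_self`).) -/
theorem pkw_mu_wt {E : ℝ} (hE : (dd V : ℝ) < E) :
    ∃ c : ℝ, 0 < c ∧ ∀ (μ : Measure (V × ℝ)) [SFinite μ] (M : ℝ≥0∞), (∀ z, μ (closedBall z 1) ≤ M) →
      ∀ y, ∫⁻ z, wt E 1 (y - z) ∂μ ≤ ENNReal.ofReal c * M := by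
  obtain ⟨c₁, hc₁, hvol⟩ := exists_volume_closedBall (V := V)
  obtain ⟨c₂, hc₂, hwt⟩ := exists_lintegral_wt (V := V) hE
  have hE0 : 0 ≤ E := le_trans (Nat.cast_nonneg _) hE.le
  have h2 : (0 : ℝ) < (1 + 1) ^ (-E) := Real.rpow_pos_of_pos (by norm_num) _
  have hhaar : (volume : Measure (V × ℝ)).IsAddHaarMeasure := by
    rw [Measure.volume_eq_prod]
    infer_instance
  refine ⟨((1 + 1) ^ (-E) * c₁)⁻¹ * c₂, by positivity, fun μ _ M hM y => ?_⟩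
  have hw : Measurable (wt E 1 : V × ℝ → ℝ≥0∞) := measurable_wt E 1
  have hpt : ∀ z, ENNReal.ofReal ((1 + 1) ^ (-E) * c₁) * wt E 1 (y - z) ≤ ∫⁻ z' in closedBall z 1, wt E 1 (y - z') := by
    intro z
    calc ENNReal.ofReal ((1 + 1) ^ (-E) * c₁) * wt E 1 (y - z)
        = ∫⁻ _ in closedBall z 1, wt E 1 (y - z) * ENNReal.ofReal ((1 + 1) ^ (-E)) := by
          rw [setLIntegral_const, hvol z 1 one_pos, Real.one_rpow, mul_one, ENNReal.ofReal_mul h2.le]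
          ring
      _ ≤ ∫⁻ z' in closedBall z 1, wt E 1 (y - z') := by
          refine setLIntegral_mono' measurableSet_closedBall fun z' hz' => ?_
          rw [mem_closedBall, dist_eq_norm] at hz'
          have h3 : ENNReal.ofReal ((1 + 1) ^ (-E)) ≤ wt E 1 (z - z') :=
            wt_ge_of_le hE0 one_pos (by rw [one_mul, norm_sub_rev]; exact hz')
          have h4 := wt_peetre hE0 one_pos (y - z) (z - z')
          rw [sub_add_sub_cancel] at h4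
          exact (mul_le_mul' le_rfl h3).trans h4
  have hS : MeasurableSet {q : (V × ℝ) × (V × ℝ) | dist q.2 q.1 ≤ 1} :=
    (isClosed_le (continuous_snd.dist continuous_fst) continuous_const).measurableSet
  have hΦ : Measurable ({q : (V × ℝ) × (V × ℝ) | dist q.2 q.1 ≤ 1}.indicator fun q => wt E 1 (y - q.2)) :=
    (hw.comp (measurable_const.sub measurable_snd)).indicator hS
  have hswap : ∫⁻ z, (∫⁻ z' in closedBall z 1, wt E 1 (y - z')) ∂μ = ∫⁻ z', wt E 1 (y - z') * μ (closedBall z' 1) := by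
    have e1 : ∀ z, ∫⁻ z' in closedBall z 1, wt E 1 (y - z')
        = ∫⁻ z', {q : (V × ℝ) × (V × ℝ) | dist q.2 q.1 ≤ 1}.indicator (fun q => wt E 1 (y - q.2)) (z, z') := by
      intro z
      rw [← lintegral_indicator measurableSet_closedBall]
      rfl
    simp only [e1]
    rw [lintegral_lintegral_swap (f := fun z z' =>
      {q : (V × ℝ) × (V × ℝ) | dist q.2 q.1 ≤ 1}.indicator (fun q => wt E 1 (y - q.2)) (z, z')) hΦ.aemeasurable]
    refine lintegral_congr fun z' => ?_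
    have e2 : (fun z => {q : (V × ℝ) × (V × ℝ) | dist q.2 q.1 ≤ 1}.indicator (fun q => wt E 1 (y - q.2)) (z, z'))
        = (closedBall z' 1).indicator fun _ => wt E 1 (y - z') := by
      funext z
      by_cases h : dist z' z ≤ 1
      · rw [Set.indicator_of_mem (show (z, z') ∈ {q : (V × ℝ) × (V × ℝ) | dist q.2 q.1 ≤ 1} from h),
          Set.indicator_of_mem (show z ∈ closedBall z' 1 by rwa [mem_closedBall, dist_comm])]
      · rw [Set.indicator_of_notMem (show (z, z') ∉ {q : (V × ℝ) × (V × ℝ) | dist q.2 q.1 ≤ 1} from h),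
          Set.indicator_of_notMem (show z ∉ closedBall z' 1 by rwa [mem_closedBall, dist_comm])]
    rw [e2, lintegral_indicator_const measurableSet_closedBall]
  have hmain : ENNReal.ofReal ((1 + 1) ^ (-E) * c₁) * ∫⁻ z, wt E 1 (y - z) ∂μ ≤ ENNReal.ofReal c₂ * M := by
    calc ENNReal.ofReal ((1 + 1) ^ (-E) * c₁) * ∫⁻ z, wt E 1 (y - z) ∂μ
        = ∫⁻ z, ENNReal.ofReal ((1 + 1) ^ (-E) * c₁) * wt E 1 (y - z) ∂μ :=
          (lintegral_const_mul _ (hw.comp (measurable_const.sub measurable_id))).symm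
      _ ≤ ∫⁻ z, (∫⁻ z' in closedBall z 1, wt E 1 (y - z')) ∂μ := lintegral_mono hpt
      _ = ∫⁻ z', wt E 1 (y - z') * μ (closedBall z' 1) := hswap
      _ ≤ ∫⁻ z', wt E 1 (y - z') * M := lintegral_mono fun z' => mul_le_mul' le_rfl (hM z')
      _ = ENNReal.ofReal c₂ * M := by
          have hm : Measurable fun z' => wt E 1 (y - z') := hw.comp (measurable_const.sub measurable_id)
          rw [lintegral_mul_const _ hm,
            lintegral_sub_left_eq_self (fun x => wt E 1 x) y, hwt 1 one_pos, Real.one_rpow, mul_one]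
  have hpos : 0 < (1 + 1) ^ (-E) * c₁ := by positivity
  calc ∫⁻ z, wt E 1 (y - z) ∂μ
      = ENNReal.ofReal (((1 + 1) ^ (-E) * c₁)⁻¹) * (ENNReal.ofReal ((1 + 1) ^ (-E) * c₁) * ∫⁻ z, wt E 1 (y - z) ∂μ) := by
        rw [← mul_assoc, ← ENNReal.ofReal_mul (by positivity), inv_mul_cancel₀ hpos.ne', ENNReal.ofReal_one, one_mul]
    _ ≤ ENNReal.ofReal (((1 + 1) ^ (-E) * c₁)⁻¹) * (ENNReal.ofReal c₂ * M) := mul_le_mul' le_rfl hmain
    _ = _ := by rw [← mul_assoc, ← ENNReal.ofReal_mul (by positivity)]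

/-- **L-PKW-T2MU** `pkb_T2` at radius `1` with the outer integral against `μ`.
(`avp p (E₀+E₁) 1 F z = ∫ |F y|^p wt E₀ 1 (y-z) wt E₁ 1 (y-z) dy` (`wt_mul`, `1^(-d) = 1`); Tonelli; `u z * wt E₀ 1 (y - z) ≤ K * u y`; `pkw_mu_wt` for `E₁`.) -/
theorem pkw_T2mu (E₀ : ℝ) {E₁ : ℝ} (hE₁ : (dd V : ℝ) < E₁) :
    ∃ c₂ : ℝ, 0 < c₂ ∧ ∀ (μ : Measure (V × ℝ)) [SFinite μ] (M : ℝ≥0∞) (p : ℝ) (K : ℝ≥0∞) (u : V × ℝ → ℝ≥0∞) (F : V × ℝ → ℂ),
      (∀ z, μ (closedBall z 1) ≤ M) → Measurable u → Continuous F → (∀ y z, u z * wt E₀ 1 (y - z) ≤ K * u y) →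
      ∫⁻ z, u z * avp p (E₀ + E₁) 1 F z ∂μ ≤ ENNReal.ofReal c₂ * M * K * ∫⁻ y, u y * ‖F y‖ₑ ^ p := by
  obtain ⟨c, hc, hwt⟩ := pkw_mu_wt (V := V) hE₁
  refine ⟨c, hc, fun μ _ M p K u F hM hu hF hK => ?_⟩
  have hP : Measurable fun y => ‖F y‖ₑ ^ p := (hF.measurable.enorm).pow_const _
  have hw : Measurable (wt E₁ 1 : V × ℝ → ℝ≥0∞) := measurable_wt E₁ 1
  have hw2 : Measurable (wt (E₀ + E₁) 1 : V × ℝ → ℝ≥0∞) := measurable_wt _ 1
  unfold avp
  rw [Real.one_rpow, ENNReal.ofReal_one]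
  simp only [one_mul]
  calc ∫⁻ z, u z * (∫⁻ y, ‖F y‖ₑ ^ p * wt (E₀ + E₁) 1 (y - z)) ∂μ
      = ∫⁻ z, (∫⁻ y, u z * (‖F y‖ₑ ^ p * wt (E₀ + E₁) 1 (y - z))) ∂μ := by
        refine lintegral_congr fun z => ?_
        have hm : Measurable fun y => ‖F y‖ₑ ^ p * wt (E₀ + E₁) 1 (y - z) :=
          hP.mul (hw2.comp (measurable_id.sub measurable_const))
        rw [lintegral_const_mul _ hm]
    _ ≤ ∫⁻ z, (∫⁻ y, K * (u y * ‖F y‖ₑ ^ p) * wt E₁ 1 (y - z)) ∂μ := by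
        refine lintegral_mono fun z => lintegral_mono fun y => ?_
        rw [← wt_mul one_pos]
        calc u z * (‖F y‖ₑ ^ p * (wt E₀ 1 (y - z) * wt E₁ 1 (y - z)))
            = ‖F y‖ₑ ^ p * wt E₁ 1 (y - z) * (u z * wt E₀ 1 (y - z)) := by ring
          _ ≤ ‖F y‖ₑ ^ p * wt E₁ 1 (y - z) * (K * u y) := mul_le_mul' le_rfl (hK y z)
          _ = _ := by ring
    _ = ∫⁻ y, ∫⁻ z, K * (u y * ‖F y‖ₑ ^ p) * wt E₁ 1 (y - z) ∂μ := by
        refine lintegral_lintegral_swap (Measurable.aemeasurable ?_)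
        exact (((hu.comp measurable_snd).mul (hP.comp measurable_snd)).const_mul _).mul
          (hw.comp (measurable_snd.sub measurable_fst))
    _ ≤ ∫⁻ y, ENNReal.ofReal c * M * K * (u y * ‖F y‖ₑ ^ p) := by
        refine lintegral_mono fun y => ?_
        have hm : Measurable fun z => wt E₁ 1 (y - z) := hw.comp (measurable_const.sub measurable_id)
        rw [lintegral_const_mul _ hm]
        calc K * (u y * ‖F y‖ₑ ^ p) * ∫⁻ z, wt E₁ 1 (y - z) ∂μ ≤ K * (u y * ‖F y‖ₑ ^ p) * (ENNReal.ofReal c * M) :=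
              mul_le_mul' le_rfl (hwt μ M hM y)
          _ = _ := by ring
    _ = _ := lintegral_const_mul _ (hu.mul hP)

/-- **L-PKW-FSBALL** the field of a packet family has Fourier support in a fixed ball.
(`FS.sum`, `FS.mono`, `cap_subset_ball` with `a = C / N ≤ C`, `b = C / N^2 ≤ C`, `‖(v, ‖v‖^2)‖ ≤ C + C^2`.) -/
theorem PkbFam.fs_ball {W : Submodule ℝ V} {C P' N : ℝ} {s : Finset ι} {v : ι → V} {c : ι → V × ℝ} {a : ι → ℝ≥0∞} {f : ι → V × ℝ → ℂ}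
    (h : PkbFam W C P' N s v c a f) (hC : 0 ≤ C) (hN : 1 ≤ N) :
    FS (closedBall 0 (3 * C + 4 * C ^ 2)) (fun z => ∑ j ∈ s, f j z) := by
  have hN0 : 0 < N := by linarith
  refine FS.sum s fun j hj => (h.fs j hj).mono ?_
  have h1 : C / N ≤ C := div_le_self hC hN
  have h2 : C / N ^ 2 ≤ C := div_le_self hC (by nlinarith)
  have hv := h.bdd j hj
  intro w hw
  obtain ⟨hw1, hw2⟩ := hw
  have a1 : ‖w.1‖ ≤ 2 * C := by
    calc ‖w.1‖ = ‖(w.1 - v j) + v j‖ := by rw [sub_add_cancel]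
      _ ≤ ‖w.1 - v j‖ + ‖v j‖ := norm_add_le _ _
      _ ≤ C + C := add_le_add (hw1.trans h1) hv
      _ = 2 * C := by ring
  have a2 : |w.2| ≤ C + (2 * C) ^ 2 := by
    have h3 : |w.2| ≤ |w.2 - ‖w.1‖ ^ 2| + |‖w.1‖ ^ 2| := by
      have := abs_add_le (w.2 - ‖w.1‖ ^ 2) (‖w.1‖ ^ 2)
      rwa [sub_add_cancel] at this
    have h4 : |‖w.1‖ ^ 2| ≤ (2 * C) ^ 2 := by
      rw [abs_of_nonneg (by positivity)]
      exact pow_le_pow_left₀ (norm_nonneg _) a1 2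
    linarith [hw2.trans h2]
  rw [mem_closedBall, dist_zero_right, Prod.norm_def]
  refine max_le ?_ ?_
  · nlinarith
  · rw [Real.norm_eq_abs]
    nlinarith

/-- **L-PKW-SUP** suprema over `r`-balls of a function with Fourier support in a fixed ball are controlled by the local average at radius `1`.
(`loc_const_ball R₀ E p` at `r = 1`, `w₀ = 0`: `‖F z'‖ₑ^p ≤ A avp p E 1 F z'`; `avp_shift` with `A = r`, `R = 1`; `iSup₂_le` after `ENNReal.rpow_le_rpow_iff`/`ENNReal.le_rpow_inv_iff`: `x ≤ B^(1/p)` for all `x` in the family.) -/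
theorem pkw_sup_le (R₀ E p r : ℝ) (hp : 1 ≤ p) (hE : (dd V : ℝ) < E) (hr : 0 ≤ r) :
    ∃ A₀ : ℝ, 0 ≤ A₀ ∧ ∀ F : V × ℝ → ℂ, FS (closedBall 0 R₀) F →
      ∀ z, (⨆ z' ∈ closedBall z r, ‖F z'‖ₑ) ^ p ≤ ENNReal.ofReal A₀ * avp p E 1 F z := by
  obtain ⟨A, hA⟩ := loc_const_ball (V := V) R₀ E p hp hE
  have hE0 : 0 ≤ E := le_trans (Nat.cast_nonneg _) hE.le
  have hp0 : 0 < p := by linarith
  refine ⟨max A 0 * (1 + r) ^ E, by positivity, fun F hF z => ?_⟩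
  have key : ∀ z' ∈ closedBall z r, ‖F z'‖ₑ ^ p ≤ ENNReal.ofReal (max A 0 * (1 + r) ^ E) * avp p E 1 F z := by
    intro z' hz'
    rw [mem_closedBall, dist_eq_norm] at hz'
    have h1 := hA 1 0 F one_pos (by rwa [div_one]) z'
    have h2 : avp p E 1 F z' ≤ ENNReal.ofReal ((1 + r) ^ E) * avp p E 1 F z :=
      avp_shift hE0 one_pos hr F (by rw [mul_one, norm_sub_rev]; exact hz')
    calc ‖F z'‖ₑ ^ p ≤ ENNReal.ofReal A * avp p E 1 F z' := h1
      _ ≤ ENNReal.ofReal (max A 0) * (ENNReal.ofReal ((1 + r) ^ E) * avp p E 1 F z) :=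
          mul_le_mul' (ENNReal.ofReal_le_ofReal (le_max_left _ _)) h2
      _ = _ := by rw [← mul_assoc, ← ENNReal.ofReal_mul (le_max_right _ _)]
  rw [← ENNReal.le_rpow_inv_iff hp0]
  refine iSup₂_le fun z' hz' => ?_
  rw [ENNReal.le_rpow_inv_iff hp0]
  exact key z' hz'

/-- **L-PKW-SQSUP** suprema over `r`-balls of the negative power of the square envelope.
(`pkb_sq_neg_peetre` with `(z, y) := (z', z)`; `ofReal ((1+r)^(-E₀)) ≤ wt E₀ N (z - z')`, `E₀ = P (p/2-1)`, by `wt_ge_of_le` (`‖z - z'‖ ≤ r ≤ r N`); multiply by `ofReal ((1+r)^E₀)`.) -/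
theorem pkw_sq_sup_le {p P N C r : ℝ} (hp : 2 ≤ p) (hP : 0 ≤ P) (hN : 1 ≤ N) (hr : 0 ≤ r) (s : Finset ι) {v : ι → V} (hv : ∀ j ∈ s, ‖v j‖ ≤ C) (hC : 0 ≤ C)
    (c : ι → V × ℝ) (m : ι → ℝ≥0∞) (z : V × ℝ) :
    ⨆ z' ∈ closedBall z r, pkbSq P N s v c m z' ^ (1 - p / 2)
      ≤ ENNReal.ofReal (((1 + r) * (1 + 2 * C)) ^ (P * (p / 2 - 1))) * pkbSq P N s v c m z ^ (1 - p / 2) := by
  have hN0 : 0 < N := by linarith
  have hE₀ : 0 ≤ P * (p / 2 - 1) := mul_nonneg hP (by linarith)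
  have hr1 : 0 < 1 + r := by linarith
  refine iSup₂_le fun z' hz' => ?_
  rw [mem_closedBall, dist_eq_norm] at hz'
  have h1 := pkb_sq_neg_peetre hp hP hN s hv hC c m z z'
  have h2 : ENNReal.ofReal ((1 + r) ^ (-(P * (p / 2 - 1)))) ≤ wt (P * (p / 2 - 1)) N (z - z') :=
    wt_ge_of_le hE₀ hN0 (by
      rw [norm_sub_rev]
      exact hz'.trans (le_mul_of_one_le_right hr hN))
  have h3 : ENNReal.ofReal ((1 + r) ^ (P * (p / 2 - 1))) * ENNReal.ofReal ((1 + r) ^ (-(P * (p / 2 - 1)))) = 1 := by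
    rw [← ENNReal.ofReal_mul (by positivity), ← Real.rpow_add hr1, add_neg_cancel, Real.rpow_zero, ENNReal.ofReal_one]
  calc pkbSq P N s v c m z' ^ (1 - p / 2)
      = ENNReal.ofReal ((1 + r) ^ (P * (p / 2 - 1))) * (pkbSq P N s v c m z' ^ (1 - p / 2) * ENNReal.ofReal ((1 + r) ^ (-(P * (p / 2 - 1))))) := by
        rw [mul_comm (pkbSq P N s v c m z' ^ (1 - p / 2)), ← mul_assoc, h3, one_mul]
    _ ≤ ENNReal.ofReal ((1 + r) ^ (P * (p / 2 - 1))) * (pkbSq P N s v c m z' ^ (1 - p / 2) * wt (P * (p / 2 - 1)) N (z - z')) := by gcongr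
    _ ≤ ENNReal.ofReal ((1 + r) ^ (P * (p / 2 - 1))) * (ENNReal.ofReal ((1 + 2 * C) ^ (P * (p / 2 - 1))) * pkbSq P N s v c m z ^ (1 - p / 2)) := by gcongr
    _ = _ := by
        rw [← mul_assoc, ← ENNReal.ofReal_mul (by positivity), ← Real.mul_rpow hr1.le (by linarith)]

/-- **EXIT A: MEASURE FORM WITH SUPREMA.**  Any constant `A` of the weighted packet estimate at scale `N` gives the constant `K M A` for all measures of unit density `≤ M`, with suprema over `r`-balls of both factors. -/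
theorem pkw_meas (W : Submodule ℝ V) {p P P' C r : ℝ} (hp : 2 ≤ p) (hP : 0 ≤ P) (hC : 1 ≤ C) (hr : 0 ≤ r) :
    ∃ K : ℝ, 0 ≤ K ∧ ∀ (N : ℝ) (A : ℝ≥0∞), 1 ≤ N → PkbLe W p P P' C N A →
      ∀ (μ : Measure (V × ℝ)) [SFinite μ] (M : ℝ≥0∞), (∀ z, μ (closedBall z 1) ≤ M) →
      ∀ (ι : Type) (s : Finset ι) (v : ι → V) (c : ι → V × ℝ) (a m : ι → ℝ≥0∞) (f : ι → V × ℝ → ℂ),
        PkbFam W C P' N s v c a f → (∀ j ∈ s, m j ≠ 0 ∧ m j ≠ ∞) →
        ∫⁻ z, (⨆ z' ∈ closedBall z r, pkbSq P N s v c m z' ^ (1 - p / 2)) * (⨆ z' ∈ closedBall z r, ‖∑ j ∈ s, f j z'‖ₑ) ^ p ∂μ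
          ≤ ENNReal.ofReal K * M * A * (ENNReal.ofReal (N ^ (Module.finrank ℝ V + 2)) * ∑ j ∈ s, a j ^ p * m j ^ (1 - p / 2)) := by
  have hE₀ : 0 ≤ P * (p / 2 - 1) := mul_nonneg hP (by linarith)
  obtain ⟨c₂, hc₂, hT⟩ := pkw_T2mu (V := V) (P * (p / 2 - 1)) (E₁ := (dd V : ℝ) + 1) (by linarith)
  obtain ⟨A₀, hA₀, hsup⟩ := pkw_sup_le (V := V) (3 * C + 4 * C ^ 2) (P * (p / 2 - 1) + ((dd V : ℝ) + 1)) p r (by linarith) (by linarith) hr
  have hC0 : (0 : ℝ) ≤ C := by linarith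
  refine ⟨((1 + r) * (1 + 2 * C)) ^ (P * (p / 2 - 1)) * A₀ * c₂ * (1 + 2 * C) ^ (P * (p / 2 - 1)), by positivity, ?_⟩
  intro N A hN hA μ _ M hM ι s v c a m f hF hm
  have hFS := hF.fs_ball hC0 hN
  have hu : Measurable fun z => pkbSq P N s v c m z ^ (1 - p / 2) := (pkb_measurable_sq P N s v c m).pow_const _
  have hpe : ∀ y z, pkbSq P N s v c m z ^ (1 - p / 2) * wt (P * (p / 2 - 1)) 1 (y - z)
      ≤ ENNReal.ofReal ((1 + 2 * C) ^ (P * (p / 2 - 1))) * pkbSq P N s v c m y ^ (1 - p / 2) := fun y z =>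
    (mul_le_mul_right (wt_mono_R hE₀ one_pos hN _) _).trans (pkb_sq_neg_peetre hp hP hN s hF.bdd hC0 c m y z)
  have h1 := hT μ M p _ _ _ hM hu hFS.continuous hpe
  have h2 := hA ι s v c a m f hF hm
  calc ∫⁻ z, (⨆ z' ∈ closedBall z r, pkbSq P N s v c m z' ^ (1 - p / 2)) * (⨆ z' ∈ closedBall z r, ‖∑ j ∈ s, f j z'‖ₑ) ^ p ∂μ
      ≤ ∫⁻ z, (ENNReal.ofReal (((1 + r) * (1 + 2 * C)) ^ (P * (p / 2 - 1))) * ENNReal.ofReal A₀) *
          (pkbSq P N s v c m z ^ (1 - p / 2) * avp p (P * (p / 2 - 1) + ((dd V : ℝ) + 1)) 1 (fun z => ∑ j ∈ s, f j z) z) ∂μ := by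
        refine lintegral_mono fun z => ?_
        refine (mul_le_mul' (pkw_sq_sup_le hp hP hN hr s hF.bdd hC0 c m z) (hsup _ hFS z)).trans (le_of_eq ?_)
        ring
    _ = (ENNReal.ofReal (((1 + r) * (1 + 2 * C)) ^ (P * (p / 2 - 1))) * ENNReal.ofReal A₀) *
          ∫⁻ z, pkbSq P N s v c m z ^ (1 - p / 2) * avp p (P * (p / 2 - 1) + ((dd V : ℝ) + 1)) 1 (fun z => ∑ j ∈ s, f j z) z ∂μ :=
        lintegral_const_mul' _ _ (ENNReal.mul_ne_top ENNReal.ofReal_ne_top ENNReal.ofReal_ne_top)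
    _ ≤ (ENNReal.ofReal (((1 + r) * (1 + 2 * C)) ^ (P * (p / 2 - 1))) * ENNReal.ofReal A₀) *
          (ENNReal.ofReal c₂ * M * ENNReal.ofReal ((1 + 2 * C) ^ (P * (p / 2 - 1))) *
            (A * (ENNReal.ofReal (N ^ (Module.finrank ℝ V + 2)) * ∑ j ∈ s, a j ^ p * m j ^ (1 - p / 2)))) := by
        gcongr
        exact h1.trans (by gcongr)
    _ = _ := by
        rw [ENNReal.ofReal_mul (by positivity), ENNReal.ofReal_mul (by positivity), ENNReal.ofReal_mul (by positivity)]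
        ring

/-! ## the exponent `2` without loss -/

open scoped Classical in
/-- **L-PKW-SLOT** Cauchy-Schwarz in one frequency slot.  (`enorm_sum_le`, `h.dec`; `(∑ a φ)² ≤ (∑ a² φ)(∑ φ)` (`pkb_cs3` at `p = 2`, `m = 1`, or `ENNReal.inner_le_Lp_mul_Lq`); `∑_{t} φ ≤ ∑_{filter} φ ≤ C` by `h.mult ξ z`.) -/
theorem PkbFam.slot_sq {W : Submodule ℝ V} {C P' N : ℝ} {s : Finset ι} {v : ι → V} {c : ι → V × ℝ} {a : ι → ℝ≥0∞} {f : ι → V × ℝ → ℂ}
    (h : PkbFam W C P' N s v c a f) {t : Finset ι} (ht : t ⊆ s) (ξ : V) (hξ : ∀ j ∈ t, ‖v j - ξ‖ ≤ 1 / N) (z : V × ℝ) :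
    ‖∑ j ∈ t, f j z‖ₑ ^ (2 : ℝ) ≤ ENNReal.ofReal C * ∑ j ∈ t, a j ^ (2 : ℝ) * pkbEnv P' N (v j) (c j) z := by
  set φ : ι → ℝ≥0∞ := fun j => pkbEnv P' N (v j) (c j) z with hφ
  have h1 : ‖∑ j ∈ t, f j z‖ₑ ≤ ∑ j ∈ t, a j * φ j :=
    (enorm_sum_le _ _).trans (Finset.sum_le_sum fun j hj => h.dec j (ht hj) z)
  have hcs : ∑ j ∈ t, a j * φ j ≤ (∑ j ∈ t, a j ^ (2 : ℝ) * φ j) ^ (1 / 2 : ℝ) * (∑ j ∈ t, φ j) ^ (1 / 2 : ℝ) := by
    have h := ENNReal.inner_le_Lp_mul_Lq t (fun j => a j * φ j ^ (1 / 2 : ℝ)) (fun j => φ j ^ (1 / 2 : ℝ)) Real.HolderConjugate.two_two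
    have e1 : ∀ j, a j * φ j ^ (1 / 2 : ℝ) * φ j ^ (1 / 2 : ℝ) = a j * φ j := by
      intro j
      rw [mul_assoc, ← ENNReal.rpow_add_of_nonneg _ _ (by norm_num) (by norm_num)]
      norm_num
    have e2 : ∀ j, (a j * φ j ^ (1 / 2 : ℝ)) ^ (2 : ℝ) = a j ^ (2 : ℝ) * φ j := by
      intro j
      rw [ENNReal.mul_rpow_of_nonneg _ _ (by norm_num), ← ENNReal.rpow_mul]
      norm_num
    have e3 : ∀ j, (φ j ^ (1 / 2 : ℝ)) ^ (2 : ℝ) = φ j := by
      intro j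
      rw [← ENNReal.rpow_mul]
      norm_num
    simpa only [e1, e2, e3] using h
  have h2 : ∑ j ∈ t, φ j ≤ ENNReal.ofReal C :=
    (Finset.sum_le_sum_of_subset (fun j hj => Finset.mem_filter.2 ⟨ht hj, hξ j hj⟩)).trans (h.mult ξ z)
  calc ‖∑ j ∈ t, f j z‖ₑ ^ (2 : ℝ)
      ≤ ((∑ j ∈ t, a j ^ (2 : ℝ) * φ j) ^ (1 / 2 : ℝ) * (∑ j ∈ t, φ j) ^ (1 / 2 : ℝ)) ^ (2 : ℝ) :=
        ENNReal.rpow_le_rpow (h1.trans hcs) (by norm_num)
    _ = (∑ j ∈ t, a j ^ (2 : ℝ) * φ j) * ∑ j ∈ t, φ j := by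
        rw [ENNReal.mul_rpow_of_nonneg _ _ (by norm_num), ← ENNReal.rpow_mul, ← ENNReal.rpow_mul]
        norm_num
    _ ≤ (∑ j ∈ t, a j ^ (2 : ℝ) * φ j) * ENNReal.ofReal C := by gcongr
    _ = _ := mul_comm _ _

open scoped Classical in
/-- **L-PKW-ORTH** global `L²` orthogonality of the frequency slots.  (`exists_grp s v (σ := 1 / N)`; `gsum s π f J ∈ FS {w | ‖w.1 - v J‖ ≤ (C + 1) / N}` (`FS.sum`, `FS.mono`, `Grp.near`); `orth C₂ E` with `R = N`, `C₂ = max (C+1) (3^k)`, `E = d + 1`, family `s.image π`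
(multiplicity `Grp.mult`); `sum_gsum`; integrate in `z`: `exists_lintegral_avp` on both sides, cancel `c > 0`.) -/
theorem pkw_orth (C : ℝ) (hC : 0 ≤ C) :
    ∃ A₂ : ℝ, 0 ≤ A₂ ∧ ∀ (W : Submodule ℝ V) (P' N : ℝ) (ι : Type) (s : Finset ι) (v : ι → V) (c : ι → V × ℝ) (a : ι → ℝ≥0∞) (f : ι → V × ℝ → ℂ) (π : ι → ι),
      1 ≤ N → PkbFam W C P' N s v c a f → Grp ((3 : ℝ) ^ Module.finrank ℝ V) (1 / N) s v π v →
      ∫⁻ z, ‖∑ j ∈ s, f j z‖ₑ ^ (2 : ℝ) ≤ ENNReal.ofReal A₂ * ∑ J ∈ s.image π, ∫⁻ z, ‖gsum s π f J z‖ₑ ^ (2 : ℝ) := by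
  set C₂ : ℝ := max (C + 1) ((3 : ℝ) ^ Module.finrank ℝ V) with hC₂
  have hC₂0 : 0 ≤ C₂ := le_trans (by linarith) (le_max_left _ _)
  obtain ⟨A, hA⟩ := orth (V := V) C₂ ((dd V : ℝ) + 1) hC₂0 (by positivity)
  obtain ⟨c₀, hc₀, hav⟩ := exists_lintegral_avp (V := V) (E := (dd V : ℝ) + 1) (by linarith)
  refine ⟨max A 0, le_max_right _ _, ?_⟩
  intro W P' N ι s v c a f π hN hF hG
  have hN0 : 0 < N := by linarith
  have hfs : ∀ J ∈ s.image π, FS {w : V × ℝ | ‖w.1 - v J‖ ≤ C₂ / N} (gsum s π f J) := by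
    intro J hJ
    unfold gsum
    refine FS.sum _ fun θ hθ => ?_
    rw [Finset.mem_filter] at hθ
    refine (hF.fs θ hθ.1).mono ?_
    intro w hw
    have h1 : ‖w.1 - v θ‖ ≤ C / N := hw.1
    have h2 := hG.near θ hθ.1
    rw [hθ.2] at h2
    have h3 : ‖w.1 - v J‖ ≤ ‖w.1 - v θ‖ + ‖v θ - v J‖ := by
      have := norm_add_le (w.1 - v θ) (v θ - v J)
      simpa using this
    have h4 : (C + 1) / N ≤ C₂ / N := div_le_div_of_nonneg_right (le_max_left _ _) hN0.le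
    show ‖w.1 - v J‖ ≤ C₂ / N
    have : (C + 1) / N = C / N + 1 / N := by ring
    linarith
  have hmult : ∀ ξ : V, ∀ t ⊆ s.image π, (∀ J ∈ t, ‖v J - ξ‖ ≤ 1 / N) → (t.card : ℝ) ≤ C₂ :=
    fun ξ t ht hξ => (hG.mult ξ t ht hξ).trans (le_max_right _ _)
  have h0 := hA N ι (s.image π) v (gsum s π f) hN0 hfs hmult
  have hcS : Continuous fun y => ∑ j ∈ s, f j y := continuous_finsetSum _ fun j hj => (hF.fs j hj).continuous
  have hcJ : ∀ J ∈ s.image π, Continuous (gsum s π f J) := fun J hJ => (hfs J hJ).continuous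
  have e1 : ∫⁻ z, avp 2 ((dd V : ℝ) + 1) N (fun y => ∑ j ∈ s, f j y) z = ENNReal.ofReal c₀ * ∫⁻ z, ‖∑ j ∈ s, f j z‖ₑ ^ (2 : ℝ) :=
    hav N 2 _ hN0 hcS
  have e2 : ∀ J ∈ s.image π, ∫⁻ z, avp 2 ((dd V : ℝ) + 1) N (gsum s π f J) z = ENNReal.ofReal c₀ * ∫⁻ z, ‖gsum s π f J z‖ₑ ^ (2 : ℝ) :=
    fun J hJ => hav N 2 _ hN0 (hcJ J hJ)
  have hmeas : ∀ J ∈ s.image π, Measurable fun z => avp 2 ((dd V : ℝ) + 1) N (gsum s π f J) z := by
    intro J hJ
    exact measurable_avp _ _ _ (hcJ J hJ)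
  have h5 : ENNReal.ofReal c₀ * ∫⁻ z, ‖∑ j ∈ s, f j z‖ₑ ^ (2 : ℝ)
      ≤ ENNReal.ofReal c₀ * (ENNReal.ofReal (max A 0) * ∑ J ∈ s.image π, ∫⁻ z, ‖gsum s π f J z‖ₑ ^ (2 : ℝ)) := by
    rw [← e1]
    calc ∫⁻ z, avp 2 ((dd V : ℝ) + 1) N (fun y => ∑ j ∈ s, f j y) z
        ≤ ∫⁻ z, ENNReal.ofReal (max A 0) * ∑ J ∈ s.image π, avp 2 ((dd V : ℝ) + 1) N (gsum s π f J) z := by
          refine lintegral_mono fun z => ?_
          have := h0 z
          simp only [sum_gsum] at this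
          exact this.trans (mul_le_mul_left (ENNReal.ofReal_le_ofReal (le_max_left _ _)) _)
      _ = ENNReal.ofReal (max A 0) * ∑ J ∈ s.image π, ∫⁻ z, avp 2 ((dd V : ℝ) + 1) N (gsum s π f J) z := by
          rw [lintegral_const_mul' _ _ ENNReal.ofReal_ne_top, lintegral_finsetSum _ hmeas]
      _ = _ := by
          rw [Finset.sum_congr rfl e2, ← Finset.mul_sum]
          ring
  exact (ENNReal.mul_le_mul_iff_right (by simpa using hc₀) ENNReal.ofReal_ne_top).1 h5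

/-- **EXIT B: `p = 2` WITHOUT LOSS.**  (`pkw_orth`, `PkbFam.slot_sq` on every fibre (`ξ = v J`, `Grp.near`), `pkb_lintegral_env`, `Finset.sum_fiberwise_of_maps_to`; `x ^ (1 - 2/2) = 1`.) -/
theorem pkw_l2 (W : Submodule ℝ V) {P P' C : ℝ} (hP' : (dd V : ℝ) < P') (hC : 0 ≤ C) :
    ∃ K : ℝ, 0 ≤ K ∧ ∀ N : ℝ, 1 ≤ N → PkbLe W 2 P P' C N (ENNReal.ofReal K) := by
  classical
  obtain ⟨A₂, hA₂, horth⟩ := pkw_orth (V := V) C hC
  obtain ⟨c₀, hc₀, henv⟩ := pkb_lintegral_env (V := V) hP'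
  refine ⟨A₂ * C * c₀, by positivity, fun N hN ι s v c a m f hF hm => ?_⟩
  have hN0 : 0 < N := by linarith
  obtain ⟨π, hG⟩ := exists_grp s v (σ := 1 / N) (by positivity)
  have h1 := horth W P' N ι s v c a f π hN hF hG
  have e0 : (1 - 2 / 2 : ℝ) = 0 := by norm_num
  simp only [e0, ENNReal.rpow_zero, one_mul, mul_one]
  have h2 : ∀ J ∈ s.image π, ∫⁻ z, ‖gsum s π f J z‖ₑ ^ (2 : ℝ)
      ≤ ENNReal.ofReal C * ENNReal.ofReal (c₀ * N ^ (Module.finrank ℝ V + 2)) * ∑ j ∈ s.filter (fun θ => π θ = J), a j ^ (2 : ℝ) := by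
    intro J hJ
    calc ∫⁻ z, ‖gsum s π f J z‖ₑ ^ (2 : ℝ)
        ≤ ∫⁻ z, ENNReal.ofReal C * ∑ j ∈ s.filter (fun θ => π θ = J), a j ^ (2 : ℝ) * pkbEnv P' N (v j) (c j) z := by
          refine lintegral_mono fun z => ?_
          refine hF.slot_sq (Finset.filter_subset _ _) (v J) (fun j hj => ?_) z
          rw [Finset.mem_filter] at hj
          have := hG.near j hj.1
          rwa [hj.2] at this
      _ = ENNReal.ofReal C * ∑ j ∈ s.filter (fun θ => π θ = J), a j ^ (2 : ℝ) * ENNReal.ofReal (c₀ * N ^ (Module.finrank ℝ V + 2)) := by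
          rw [lintegral_const_mul' _ _ ENNReal.ofReal_ne_top, lintegral_finsetSum _ fun j _ => (pkb_measurable_env P' N (v j) (c j)).const_mul _]
          congr 1
          refine Finset.sum_congr rfl fun j _ => ?_
          rw [lintegral_const_mul _ (pkb_measurable_env P' N (v j) (c j)), henv N (v j) (c j) hN0]
      _ = _ := by
          rw [← Finset.sum_mul]
          ring
  calc ∫⁻ z, ‖∑ j ∈ s, f j z‖ₑ ^ (2 : ℝ)
      ≤ ENNReal.ofReal A₂ * ∑ J ∈ s.image π, ∫⁻ z, ‖gsum s π f J z‖ₑ ^ (2 : ℝ) := h1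
    _ ≤ ENNReal.ofReal A₂ * ∑ J ∈ s.image π, ENNReal.ofReal C * ENNReal.ofReal (c₀ * N ^ (Module.finrank ℝ V + 2)) * ∑ j ∈ s.filter (fun θ => π θ = J), a j ^ (2 : ℝ) := by
        gcongr with J hJ
        exact h2 J hJ
    _ = ENNReal.ofReal A₂ * (ENNReal.ofReal C * ENNReal.ofReal (c₀ * N ^ (Module.finrank ℝ V + 2)) * ∑ j ∈ s, a j ^ (2 : ℝ)) := by
        rw [← Finset.mul_sum, Finset.sum_fiberwise_of_maps_to (fun θ hθ => Finset.mem_image_of_mem π hθ)]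
    _ = _ := by
        rw [ENNReal.ofReal_mul hc₀.le, ENNReal.ofReal_mul (by positivity), ENNReal.ofReal_mul hA₂]
        ring

/-! ## the zero dimensional case -/

/-- **L-PKW-BOT** decoupling relative to `W = ⊥` is trivial: all centres are within `C ρ` of one point `e`, so the family has at most `n₀ = C (2 |C| + 1)^k`.. members
(cover `closedBall e (C ρ)` by a `ρ`-net `exists_sep_net`, `card_le_of_sep`, `Rob.mult`), and `nm p (∑ H) ≤ ∑ nm p (H j) ≤ (#s)^(1/2) (∑ nm²)^(1/2)` (Minkowski `abs_minkowski`/`ENNReal.lintegral_Lp_add_le`, Cauchy-Schwarz `abs_cs`). -/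
theorem pkw_dec_bot {p η : ℝ} (hp : 1 ≤ p) (hη : 0 ≤ η) : DecPowW (⊥ : Submodule ℝ V) p η := by
  intro C
  by_cases hC : 0 ≤ C
  · refine ⟨((2 * C + 1) ^ Module.finrank ℝ V * C) ^ (1 / 2 : ℝ), fun ρ h0 h1 ι s v H hr he => ?_⟩
    obtain ⟨e, he⟩ := he
    have hcard : (s.card : ℝ) ≤ (2 * C + 1) ^ Module.finrank ℝ V * C := by
      refine mult_scale h0 hC hr.mult e s (Finset.Subset.refl _) fun j hj => ?_
      obtain ⟨w, hw, h⟩ := he j hj
      rw [(Submodule.mem_bot ℝ).1 hw, sub_zero] at h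
      exact h
    refine (nm_sum_le hp s H fun j hj => (hr.fs j hj).continuous).trans ((abs_cs s _).trans (mul_le_mul_left ?_ _))
    rw [← ENNReal.ofReal_natCast, ENNReal.ofReal_rpow_of_nonneg (Nat.cast_nonneg _) (by norm_num)]
    refine ENNReal.ofReal_le_ofReal ((Real.rpow_le_rpow (Nat.cast_nonneg _) hcard (by norm_num)).trans ?_)
    refine le_mul_of_one_le_right (by positivity) ?_
    exact Real.one_le_rpow_of_pos_of_le_one_of_nonpos h0 h1 (by linarith)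
  · refine ⟨0, fun ρ _ _ ι s v H hr _ => ?_⟩
    have hs : s = ∅ := by
      rw [Finset.eq_empty_iff_forall_notMem]
      intro j hj
      exact hC ((norm_nonneg _).trans (hr.bdd j hj))
    subst hs
    have : nm p (fun z : V × ℝ => ∑ j ∈ (∅ : Finset ι), H j z) = 0 := by
      simp only [Finset.sum_empty, nm, ip, enorm_zero]
      rw [ENNReal.zero_rpow_of_pos (by linarith), lintegral_zero, ENNReal.zero_rpow_of_pos (by positivity)]
    rw [this]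
    exact zero_le

end

end Claimed.Agent.BD
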