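import Claimed.Agent.R257.PK1.WOutA
import Claimed.Agent.R257.Pk.Defs

/-!
# R257 / PK1 / WOutB : ADAPTERS of `pkb_weighted`, part B: FROM THE PACKET CLASS `PFam.In` (`R257/Pk/Defs.lean`, paper sign `τ = -|ξ|²`, real amplitudes) TO `BD.PkbFam`      (architect helper122)

Dictionary (`pkwR (x,t) = (x,-t)` the time reflection, an isometric measure preserving involution):
* `BD.Lam v N⁻¹ (N⁻¹)² (pkwR z) = pkwR (natX N v z)`                                   `pkw_Lam_R`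
* `car v (pkwR z) = BD.ch (BD.pr z (v, ‖v‖²))`                                          `pkw_car_R`
* `BD.pkbEnv P N v (pkwR u) (pkwR z) = ofReal ((1 + ‖natX N v z - u‖)^(-P))`            `pkw_env_R`
* packets  `f_T = A.pk T ∘ pkwR`,  native centres `pkwR (A.u T)`,  amplitudes `ofReal (a T)`,  square weights `m T = ofReal (b T ^ 2)`
* SLOT MULTIPLICITY from the phase space multiplicity: `pkw_slot` (no lattice: average over all cells `(y,τ)`, the shear is measure preserving).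
-/

set_option autoImplicit false
open MeasureTheory Set Metric
open scoped ENNReal NNReal

namespace Claimed.Agent.R257

noncomputable section

variable {k : ℕ} {ι : Type}

/-- the time reflection -/
def pkwR (z : ST k) : ST k := (z.1, -z.2)

/-- all labels within `C₁/N` of a translate of the subspace `W` (`W = ⊤`: no condition, `pkw_near_top`) -/
def PFam.Near (A : PFam k ι) (s : Finset ι) (W : Submodule ℝ (E k)) (C₁ : ℝ) : Prop :=
  ∃ e : E k, ∀ T ∈ s, ∃ w ∈ W, ‖A.v T - e - w‖ ≤ C₁ / A.N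

theorem pkw_R_R (z : ST k) : pkwR (pkwR z) = z := by
  simp [pkwR]

theorem pkw_norm_R (z : ST k) : ‖pkwR z‖ = ‖z‖ := by
  simp [pkwR, Prod.norm_def]

theorem pkw_R_sub (z z' : ST k) : pkwR (z - z') = pkwR z - pkwR z' := by
  ext1
  · simp [pkwR]
  · simp only [pkwR, Prod.snd_sub]; ring

theorem pkw_near_top (A : PFam k ι) (s : Finset ι) {C₁ : ℝ} (hC₁ : 0 ≤ C₁) (hN : 0 ≤ A.N) : A.Near s ⊤ C₁ :=
  ⟨0, fun T _ => ⟨A.v T, Submodule.mem_top, by simpa using div_nonneg hC₁ hN⟩⟩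

theorem pkw_measurable_R : Measurable (pkwR : ST k → ST k) := by
  unfold pkwR
  fun_prop

/-- the time reflection as a measurable equivalence -/
def pkwRe : ST k ≃ᵐ ST k where
  toFun := pkwR
  invFun := pkwR
  left_inv := pkw_R_R
  right_inv := pkw_R_R
  measurable_toFun := pkw_measurable_R
  measurable_invFun := pkw_measurable_R

/-- **L-PKW-RMP** (`Measure.volume_eq_prod`, `MeasurePreserving.prod (MeasurePreserving.id _) (Measure.measurePreserving_neg _)`.) -/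
theorem pkw_R_mp : MeasurePreserving (pkwR : ST k → ST k) volume volume := by
  have h := (MeasurePreserving.id (volume : Measure (E k))).prod (Measure.measurePreserving_neg (volume : Measure ℝ))
  rw [← Measure.volume_eq_prod] at h
  exact h

theorem pkw_R_closedBall (z : ST k) (r : ℝ) : pkwR ⁻¹' closedBall z r = closedBall (pkwR z) r := by
  ext w
  simp only [mem_preimage, mem_closedBall, dist_eq_norm]
  rw [← pkw_norm_R (pkwR w - z), pkw_R_sub, pkw_R_R]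

theorem pkw_Lam_R (N : ℝ) (v : E k) (z : ST k) : BD.Lam v N⁻¹ (N⁻¹ ^ 2) (pkwR z) = pkwR (natX N v z) := by
  unfold BD.Lam pkwR natX
  ext1
  · simp only
    congr 1
    module
  · simp only
    rw [inv_pow]
    ring

theorem pkw_car_R (v : E k) (z : ST k) : car v (pkwR z) = BD.ch (BD.pr z (v, ‖v‖ ^ 2)) := by
  unfold car BD.ch BD.pr pkwR
  simp only
  rw [mul_comm]
  congr 3
  ring

theorem pkw_env_R (P N : ℝ) (v : E k) (u z : ST k) :
    BD.pkbEnv P N v (pkwR u) (pkwR z) = ENNReal.ofReal ((1 + ‖natX N v z - u‖) ^ (-P)) := by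
  unfold BD.pkbEnv BD.wt
  rw [pkw_Lam_R, ← pkw_R_sub, pkw_norm_R, div_one]

/-- **L-PKW-FS** Fourier support of a packet (time reflected) in the cap of its label.
(`(hF.mono _).reflect` : `fun X => F (X.1, -X.2) ∈ FS (closedBall 0 |ρ|)` (the image of the ball under the reflection is the ball); `FS.par v (σ := N⁻¹)`; `pkw_car_R`, `pkw_Lam_R`;
`Par v σ '' closedBall 0 r ⊆ cap v (r σ) ((r + r²) σ²)`: by `Par_preimage_cap` it is enough that `closedBall 0 r ⊆ cap (σ⁻¹ • (v - v)) r (r + r²)`.) -/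
theorem pkw_fs {ρ N : ℝ} (hN : 0 < N) (v : E k) {F : ST k → ℂ} (hF : BD.FS (closedBall (0 : ST k) ρ) F) :
    BD.FS (BD.cap v (|ρ| / N) ((|ρ| + ρ ^ 2) / N ^ 2)) (fun z => car v (pkwR z) * F (natX N v (pkwR z))) := by
  have h1 := (hF.reflect).par v (σ := N⁻¹) (inv_pos.2 hN)
  have e : (fun z => car v (pkwR z) * F (natX N v (pkwR z)))
      = fun z => BD.ch (BD.pr z (v, ‖v‖ ^ 2)) * (fun z : ST k => F (z.1, -z.2)) (BD.Lam v N⁻¹ (N⁻¹ ^ 2) z) := by
    funext z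
    rw [pkw_car_R]
    congr 2
    have := pkw_Lam_R N v (pkwR z)
    rw [pkw_R_R] at this
    rw [this]
    exact (pkw_R_R _).symm
  rw [e]
  refine h1.mono ?_
  rw [image_subset_iff, BD.Par_preimage_cap v v (inv_pos.2 hN)]
  rintro _ ⟨w, hw, rfl⟩
  have hw' : ‖w‖ ≤ ρ := by simpa using hw
  have hρ : ρ ≤ |ρ| := le_abs_self ρ
  have hw1 : ‖w.1‖ ≤ |ρ| := (norm_fst_le w).trans (hw'.trans hρ)
  have hw2 : |w.2| ≤ |ρ| := (norm_snd_le w).trans (hw'.trans hρ)
  have hN' : N ≠ 0 := hN.ne'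
  have e1 : |ρ| / N / N⁻¹ = |ρ| := by field_simp
  have e2 : (|ρ| + ρ ^ 2) / N ^ 2 / N⁻¹ ^ 2 = |ρ| + ρ ^ 2 := by field_simp
  rw [e1, e2]
  constructor
  · simpa only [sub_self, smul_zero, sub_zero] using hw1
  · show |(-w.2) - ‖w.1‖ ^ 2| ≤ |ρ| + ρ ^ 2
    have h3 : ‖w.1‖ ^ 2 ≤ ρ ^ 2 := by
      rw [← sq_abs ρ]
      exact pow_le_pow_left₀ (norm_nonneg _) hw1 2
    have h4 : 0 ≤ ‖w.1‖ ^ 2 := by positivity
    rw [abs_le] at hw2 ⊢
    constructor <;> linarith [hw2.1, hw2.2]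

/-- shears and translations preserve the Lebesgue integral. -/
theorem pkw_lintegral_shear (w : E k) (q₀ : ST k) (g : ST k → ℝ≥0∞) : ∫⁻ q, g (BD.Lam w 1 1 (q - q₀)) = ∫⁻ q, g q := by
  have : (volume : Measure (ST k)).IsAddHaarMeasure := by
    rw [Measure.volume_eq_prod]
    infer_instance
  rw [lintegral_sub_right_eq_self (fun q => g (BD.Lam w 1 1 q)) q₀, BD.lintegral_Lam w one_pos one_pos g]
  simp

theorem pkw_measurable_shear (w : E k) (q₀ : ST k) : Measurable fun q : ST k => BD.Lam w 1 1 (q - q₀) := by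
  unfold BD.Lam
  fun_prop

/-- the geometric core of `pkw_slot`. -/
theorem pkw_slot_geo {N : ℝ} (hN : 1 ≤ N) (v ξ : E k) (u z q : ST k) (hv : ‖v - ξ‖ ≤ 1 / N)
    (hq : ‖BD.Lam (-(N • v)) 1 1 (q - (u.1 + (2 * u.2 * N) • v, u.2))‖ ≤ 1) :
    1 + ‖BD.Lam (-(N • ξ)) 1 1 (q - (N⁻¹ • z.1, z.2 / N ^ 2))‖ ≤ 4 * (1 + ‖natX N v z - u‖) := by
  have hN0 : 0 < N := by linarith
  set D := natX N v z - u with hD
  set φ := BD.Lam (-(N • v)) 1 1 (q - (u.1 + (2 * u.2 * N) • v, u.2)) with hφ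
  set σ : ℝ := q.2 - z.2 / N ^ 2 with hσ
  have h1 : ‖N • v - N • ξ‖ ≤ 1 := by
    rw [← smul_sub, norm_smul, Real.norm_of_nonneg hN0.le]
    calc N * ‖v - ξ‖ ≤ N * (1 / N) := by gcongr
      _ = 1 := by field_simp
  have hφ1 : ‖φ.1‖ ≤ 1 := (norm_fst_le φ).trans hq
  have hφ2 : ‖φ.2‖ ≤ 1 := (norm_snd_le φ).trans hq
  have hD1 : ‖D.1‖ ≤ ‖D‖ := norm_fst_le D
  have hD2 : ‖D.2‖ ≤ ‖D‖ := norm_snd_le D
  have e2 : σ = φ.2 - D.2 := by
    simp only [hφ, hD, hσ, BD.Lam, natX, Prod.snd_sub]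
    ring
  have hσ' : |σ| ≤ 1 + ‖D‖ := by
    rw [e2]
    calc |φ.2 - D.2| = ‖φ.2 - D.2‖ := (Real.norm_eq_abs _).symm
      _ ≤ ‖φ.2‖ + ‖D.2‖ := norm_sub_le _ _
      _ ≤ 1 + ‖D‖ := add_le_add hφ2 hD2
  have e1 : (BD.Lam (-(N • ξ)) 1 1 (q - (N⁻¹ • z.1, z.2 / N ^ 2))).1 = φ.1 - D.1 + (2 * σ) • (N • v - N • ξ) := by
    simp only [hφ, hD, hσ, BD.Lam, natX, Prod.fst_sub, Prod.snd_sub, one_smul]
    have : N⁻¹ • (z.1 - (2 * z.2) • v) = N⁻¹ • z.1 - (2 * (z.2 / N ^ 2)) • (N • v) := by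
      rw [smul_sub, smul_smul, smul_smul]
      congr 2
      field_simp
    rw [this]
    module
  have e3 : (BD.Lam (-(N • ξ)) 1 1 (q - (N⁻¹ • z.1, z.2 / N ^ 2))).2 = σ := by
    simp only [hσ, BD.Lam, Prod.snd_sub, one_mul]
  have h3 : ‖(BD.Lam (-(N • ξ)) 1 1 (q - (N⁻¹ • z.1, z.2 / N ^ 2))).1‖ ≤ 3 * (1 + ‖D‖) := by
    rw [e1]
    calc ‖φ.1 - D.1 + (2 * σ) • (N • v - N • ξ)‖ ≤ ‖φ.1‖ + ‖D.1‖ + ‖(2 * σ) • (N • v - N • ξ)‖ :=
          (norm_add_le _ _).trans (add_le_add_left (norm_sub_le _ _) _)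
      _ ≤ 1 + ‖D‖ + 2 * |σ| * 1 := by
          rw [norm_smul, Real.norm_eq_abs, abs_mul, abs_two]
          gcongr
      _ ≤ 3 * (1 + ‖D‖) := by linarith
  have h4 : ‖BD.Lam (-(N • ξ)) 1 1 (q - (N⁻¹ • z.1, z.2 / N ^ 2))‖ ≤ 3 * (1 + ‖D‖) := by
    rw [Prod.norm_def]
    refine max_le h3 ?_
    rw [e3, Real.norm_eq_abs]
    have := norm_nonneg D
    linarith
  have := norm_nonneg D
  linarith

open scoped Classical in
/-- **L-PKW-SLOT** SLOT MULTIPLICITY FROM PHASE SPACE MULTIPLICITY.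
Fix `ξ`, `z = (x,t)`, put `t₀ = t/N²`, `ξ' = N ξ`, `q₀ = (x/N, t₀)`.  For `T` in the slot and `q = (y,τ)` in the cell of `T`, i.e. `|u_T.2 - τ| ≤ 1`, `‖u_T.1 + 2 τ N v_T - y‖ ≤ 1`:
`natX z - u_T = (x/N - y + 2(τ - t₀) ξ' + 2 (τ - t₀)(N v_T - ξ') - e₁, t₀ - u_T.2)`, so with `σ = |τ - t₀|`, `Y = ‖y - x/N - 2(τ - t₀)ξ'‖`: `1 + d_T ≥ max 1 (max σ (Y - 2σ))`, hence `4 (1 + d_T) ≥ 1 + max σ Y = 1 + ‖Lam (-ξ') 1 1 (q - q₀)‖`.
The cell of `T` is the preimage of `closedBall 0 1` under `q ↦ Lam (-N v_T) 1 1 (q - q_T)`, so it has volume `c₁ = vol B(0,1)` (`lintegral_Lam` with `a = b = 1`, `exists_volume_closedBall`).  Therefore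
`c₁ ∑_T w_T(z) = ∫ ∑_T 1_{cell T}(q) w_T(z) dq ≤ 4^P' ∫ #{T : q ∈ cell T} wt P' 1 (Lam (-ξ') 1 1 (q - q₀)) dq ≤ 4^P' m₀ ∫ wt P' 1` (`h.mult ξ' y τ`, `lintegral_Lam`, `exists_lintegral_wt`). -/
theorem pkw_slot (k : ℕ) {P' : ℝ} (hP' : (k : ℝ) + 1 < P') :
    ∃ c₃ : ℝ, 0 ≤ c₃ ∧ ∀ (ι : Type) (A : PFam k ι) (s : Finset ι) (K : PCls) (a : ι → ℝ), A.In s K a → ∀ (ξ : E k) (z : ST k),
      ∑ T ∈ s.filter (fun T => ‖A.v T - ξ‖ ≤ 1 / A.N), (1 + A.d T z) ^ (-P') ≤ c₃ * K.m₀ := by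
  have hd : ((BD.dd (E k) : ℕ) : ℝ) < P' := by
    simp only [BD.dd, finrank_euclideanSpace, Fintype.card_fin]
    push_cast
    exact hP'
  have hP0 : 0 ≤ P' := by
    have : (0 : ℝ) ≤ k := Nat.cast_nonneg k
    linarith
  obtain ⟨c₁, hc₁, hvol⟩ := BD.exists_volume_closedBall (V := E k)
  obtain ⟨c, hc, hwt⟩ := BD.exists_lintegral_wt (V := E k) hd
  refine ⟨4 ^ P' * c / c₁, by positivity, ?_⟩
  intro ι A s K a h ξ z
  have hN : 1 ≤ A.N := h.one_le
  set t := s.filter (fun T => ‖A.v T - ξ‖ ≤ 1 / A.N) with ht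
  -- the cell of `T`
  let φ : ι → ST k → ST k := fun T q => BD.Lam (-(A.N • A.v T)) 1 1 (q - ((A.u T).1 + (2 * (A.u T).2 * A.N) • A.v T, (A.u T).2))
  let ind : ι → ST k → ℝ≥0∞ := fun T q => (closedBall (0 : ST k) 1).indicator (fun _ => (1 : ℝ≥0∞)) (φ T q)
  let ψ : ST k → ℝ≥0∞ := fun q => BD.wt P' 1 (BD.Lam (-(A.N • ξ)) 1 1 (q - (A.N⁻¹ • z.1, z.2 / A.N ^ 2)))
  have hind_meas : ∀ T, Measurable (ind T) := fun T =>
    (measurable_const.indicator measurableSet_closedBall).comp (pkw_measurable_shear _ _)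
  have hψ_meas : Measurable ψ := (BD.measurable_wt P' 1).comp (pkw_measurable_shear _ _)
  have hind_int : ∀ T, ∫⁻ q, ind T q = ENNReal.ofReal c₁ := fun T => by
    have := pkw_lintegral_shear (-(A.N • A.v T)) ((A.u T).1 + (2 * (A.u T).2 * A.N) • A.v T, (A.u T).2)
      ((closedBall (0 : ST k) 1).indicator (fun _ => (1 : ℝ≥0∞)))
    refine this.trans ?_
    rw [lintegral_indicator measurableSet_closedBall, setLIntegral_const, one_mul, hvol 0 1 one_pos, Real.one_rpow, mul_one]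
  have hψ_int : ∫⁻ q, ψ q = ENNReal.ofReal c := by
    refine (pkw_lintegral_shear (-(A.N • ξ)) (A.N⁻¹ • z.1, z.2 / A.N ^ 2) (BD.wt P' 1)).trans ?_
    rw [hwt 1 one_pos, Real.one_rpow, mul_one]
  -- pointwise comparison
  have hpt : ∀ T ∈ t, ∀ q, ind T q * ENNReal.ofReal ((1 + A.d T z) ^ (-P')) ≤ ind T q * (ENNReal.ofReal (4 ^ P') * ψ q) := by
    intro T hT q
    by_cases hq : φ T q ∈ closedBall (0 : ST k) 1
    · refine mul_le_mul_right ?_ _
      have hq' : ‖φ T q‖ ≤ 1 := by simpa using hq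
      have hgeo := pkw_slot_geo hN (A.v T) ξ (A.u T) z q (Finset.mem_filter.1 hT).2 hq'
      show _ ≤ ENNReal.ofReal (4 ^ P') * BD.wt P' 1 _
      unfold BD.wt
      rw [← ENNReal.ofReal_mul (by positivity), div_one]
      refine ENNReal.ofReal_le_ofReal ?_
      have hpos : 0 < 1 + ‖BD.Lam (-(A.N • ξ)) 1 1 (q - (A.N⁻¹ • z.1, z.2 / A.N ^ 2))‖ := by positivity
      have hposd : 0 < 1 + A.d T z := by unfold PFam.d; positivity
      have h1 : (4 * (1 + A.d T z)) ^ (-P') ≤ (1 + ‖BD.Lam (-(A.N • ξ)) 1 1 (q - (A.N⁻¹ • z.1, z.2 / A.N ^ 2))‖) ^ (-P') :=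
        Real.rpow_le_rpow_of_nonpos hpos hgeo (by linarith)
      rw [Real.mul_rpow (by norm_num) hposd.le] at h1
      calc (1 + A.d T z) ^ (-P') = 4 ^ P' * (4 ^ (-P') * (1 + A.d T z) ^ (-P')) := by
            rw [← mul_assoc, ← Real.rpow_add (by norm_num)]
            simp
        _ ≤ _ := by gcongr
    · have : ind T q = 0 := indicator_of_notMem hq _
      rw [this, zero_mul, zero_mul]
  -- multiplicity
  have hmult : ∀ q, ∑ T ∈ t, ind T q ≤ (K.m₀ : ℝ≥0∞) := by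
    intro q
    have e : ∑ T ∈ t, ind T q = ((t.filter fun T => φ T q ∈ closedBall (0 : ST k) 1).card : ℝ≥0∞) := by
      rw [Finset.card_filter]
      push_cast
      refine Finset.sum_congr rfl fun T _ => ?_
      by_cases hq : φ T q ∈ closedBall (0 : ST k) 1
      · rw [if_pos hq]; exact indicator_of_mem hq _
      · rw [if_neg hq]; exact indicator_of_notMem hq _
    rw [e]
    have := h.mult (A.N • ξ) q.1 q.2 (t.filter fun T => φ T q ∈ closedBall (0 : ST k) 1)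
      ((Finset.filter_subset _ _).trans (Finset.filter_subset _ _)) ?_
    · exact_mod_cast this
    · intro T hT
      obtain ⟨hT1, hq⟩ := Finset.mem_filter.1 hT
      have hq' : ‖φ T q‖ ≤ 1 := by simpa using hq
      have hv := (Finset.mem_filter.1 hT1).2
      have hN0 : 0 < A.N := by linarith
      refine ⟨?_, ?_, ?_⟩
      · rw [← smul_sub, norm_smul, Real.norm_of_nonneg hN0.le]
        calc A.N * ‖A.v T - ξ‖ ≤ A.N * (1 / A.N) := by gcongr
          _ = 1 := by field_simp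
      · have h2 : ‖(φ T q).2‖ ≤ 1 := (norm_snd_le _).trans hq'
        have e2 : (φ T q).2 = q.2 - (A.u T).2 := by simp only [φ, BD.Lam, Prod.snd_sub, one_mul]
        rw [e2, Real.norm_eq_abs, abs_sub_comm] at h2
        exact h2
      · have h1 : ‖(φ T q).1‖ ≤ 1 := (norm_fst_le _).trans hq'
        have e1 : (φ T q).1 = -((A.u T).1 + (2 * q.2 * A.N) • A.v T - q.1) := by
          simp only [φ, BD.Lam, Prod.fst_sub, Prod.snd_sub, one_smul]
          module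
        rw [e1, norm_neg] at h1
        exact h1
  -- the computation
  have hmain : ENNReal.ofReal c₁ * ENNReal.ofReal (∑ T ∈ t, (1 + A.d T z) ^ (-P')) ≤ (K.m₀ : ℝ≥0∞) * (ENNReal.ofReal (4 ^ P') * ENNReal.ofReal c) := by
    have hnn : ∀ T ∈ t, 0 ≤ (1 + A.d T z) ^ (-P') := fun T _ => by unfold PFam.d; positivity
    rw [ENNReal.ofReal_sum_of_nonneg hnn, Finset.mul_sum]
    calc ∑ T ∈ t, ENNReal.ofReal c₁ * ENNReal.ofReal ((1 + A.d T z) ^ (-P'))
        = ∑ T ∈ t, ∫⁻ q, ind T q * ENNReal.ofReal ((1 + A.d T z) ^ (-P')) := by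
          refine Finset.sum_congr rfl fun T _ => ?_
          rw [lintegral_mul_const _ (hind_meas T), hind_int]
      _ ≤ ∑ T ∈ t, ∫⁻ q, ind T q * (ENNReal.ofReal (4 ^ P') * ψ q) :=
          Finset.sum_le_sum fun T hT => lintegral_mono (hpt T hT)
      _ = ∫⁻ q, ∑ T ∈ t, ind T q * (ENNReal.ofReal (4 ^ P') * ψ q) :=
          (lintegral_finsetSum _ fun T _ => (hind_meas T).mul (hψ_meas.const_mul _)).symm
      _ ≤ ∫⁻ q, (K.m₀ : ℝ≥0∞) * (ENNReal.ofReal (4 ^ P') * ψ q) := by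
          refine lintegral_mono fun q => ?_
          rw [← Finset.sum_mul]
          exact mul_le_mul_left (hmult q) _
      _ = _ := by
          rw [lintegral_const_mul _ (hψ_meas.const_mul _), lintegral_const_mul _ hψ_meas, hψ_int]
  have hm0 : (K.m₀ : ℝ≥0∞) = ENNReal.ofReal (K.m₀ : ℝ) := (ENNReal.ofReal_natCast _).symm
  rw [hm0, ← ENNReal.ofReal_mul hc₁.le, ← ENNReal.ofReal_mul (by positivity), ← ENNReal.ofReal_mul (by positivity),
    ENNReal.ofReal_le_ofReal_iff (by positivity)] at hmain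
  rw [div_mul_eq_mul_div, le_div_iff₀ hc₁]
  calc (∑ T ∈ t, (1 + A.d T z) ^ (-P')) * c₁ = c₁ * ∑ T ∈ t, (1 + A.d T z) ^ (-P') := mul_comm _ _
    _ ≤ _ := hmain
    _ = _ := by ring

/-- **THE BRIDGE**: a family of the class `K` is (after the time reflection) a `BD.PkbFam` with a constant depending only on `k`, `K`, `C₁`.
(`C = max 1 (max K.C₀ (max (|ρ| + ρ²) (max C₁ (c₃ m₀))))`; `bdd = freq`; `plane = Near`; `fs`: `pkw_fs` + `cap_mono`; `dec`: `norm_car`, `decay`, `pkw_env_R` at `pkwR z`; `mult`: `pkw_slot` at `pkwR z`, `ENNReal.ofReal_sum_of_nonneg`.) -/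
theorem pkw_fam (k : ℕ) (K : PCls) (C₁ : ℝ) (hP' : (k : ℝ) + 1 < K.P') :
    ∃ C : ℝ, 1 ≤ C ∧ ∀ (W : Submodule ℝ (E k)) (ι : Type) (A : PFam k ι) (s : Finset ι) (a : ι → ℝ), A.In s K a → A.Near s W C₁ →
      BD.PkbFam W C K.P' A.N s A.v (fun T => pkwR (A.u T)) (fun T => ENNReal.ofReal (a T)) (fun T z => A.pk T (pkwR z)) := by
  classical
  obtain ⟨c₃, hc₃, hslot⟩ := pkw_slot k hP'
  refine ⟨max 1 (max K.C₀ (max (|K.ρ| + K.ρ ^ 2) (max C₁ (c₃ * K.m₀)))), le_max_left _ _, ?_⟩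
  set C := max 1 (max K.C₀ (max (|K.ρ| + K.ρ ^ 2) (max C₁ (c₃ * K.m₀)))) with hC
  have h1 : K.C₀ ≤ C := (le_max_left _ _).trans (le_max_right _ _)
  have h2 : |K.ρ| + K.ρ ^ 2 ≤ C := (le_max_left _ _).trans ((le_max_right _ _).trans (le_max_right _ _))
  have h3 : C₁ ≤ C := (le_max_left _ _).trans ((le_max_right _ _).trans ((le_max_right _ _).trans (le_max_right _ _)))
  have h4 : c₃ * K.m₀ ≤ C := (le_max_right _ _).trans ((le_max_right _ _).trans ((le_max_right _ _).trans (le_max_right _ _)))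
  intro W ι A s a h hW
  have hN : 0 < A.N := lt_of_lt_of_le one_pos h.one_le
  refine ⟨fun T hT => (h.freq T hT).trans h1, ?_, fun T hT => ?_, fun T hT z => ?_, fun ξ z => ?_⟩
  · obtain ⟨e, he⟩ := hW
    refine ⟨e, fun T hT => ?_⟩
    obtain ⟨w, hw, hle⟩ := he T hT
    exact ⟨w, hw, hle.trans (by gcongr)⟩
  · refine (pkw_fs hN (A.v T) (h.fs T hT)).mono (BD.cap_mono ?_ ?_)
    · have : |K.ρ| ≤ C := le_trans (by nlinarith [sq_nonneg K.ρ]) h2
      gcongr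
    · gcongr
  · show ‖car (A.v T) (pkwR z) * A.F T (natX A.N (A.v T) (pkwR z))‖ₑ ≤ _
    have e := pkw_env_R K.P' A.N (A.v T) (A.u T) (pkwR z)
    rw [pkw_R_R] at e
    rw [e, ← ENNReal.ofReal_mul (h.amp_nonneg hT), ← ofReal_norm, norm_mul, norm_car, one_mul]
    exact ENNReal.ofReal_le_ofReal (h.decay T hT _)
  · have e : ∀ T, BD.pkbEnv K.P' A.N (A.v T) (pkwR (A.u T)) z = ENNReal.ofReal ((1 + A.d T (pkwR z)) ^ (-K.P')) := fun T => by
      have e := pkw_env_R K.P' A.N (A.v T) (A.u T) (pkwR z)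
      rw [pkw_R_R] at e
      exact e
    simp only [e]
    rw [← ENNReal.ofReal_sum_of_nonneg (fun T _ => by unfold PFam.d; positivity)]
    refine ENNReal.ofReal_le_ofReal (le_trans ?_ h4)
    convert hslot ι A s K a h ξ (pkwR z)

/-! ## real and extended real forms -/

/-- (`pkw_env_R`, `ENNReal.ofReal_mul`, `ENNReal.ofReal_sum_of_nonneg`.) -/
theorem pkw_sq_R (A : PFam k ι) (P : ℝ) (s : Finset ι) (b : ι → ℝ) (z : ST k) :
    BD.pkbSq P A.N s A.v (fun T => pkwR (A.u T)) (fun T => ENNReal.ofReal (b T ^ 2)) (pkwR z) = ENNReal.ofReal (A.sq P s b z) := by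
  unfold BD.pkbSq PFam.sq PFam.w PFam.d
  rw [ENNReal.ofReal_sum_of_nonneg (fun T _ => by positivity)]
  refine Finset.sum_congr rfl fun T _ => ?_
  rw [pkw_env_R, ENNReal.ofReal_mul (by positivity)]

theorem pkw_w_pos (A : PFam k ι) (P : ℝ) (T : ι) (z : ST k) : 0 < A.w P T z := by
  unfold PFam.w PFam.d
  positivity

theorem pkw_sq_nonneg (A : PFam k ι) (P : ℝ) (s : Finset ι) (b : ι → ℝ) (z : ST k) : 0 ≤ A.sq P s b z :=
  Finset.sum_nonneg fun T _ => mul_nonneg (sq_nonneg _) (pkw_w_pos A P T z).le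

open scoped Classical in
/-- packets with `b = 0` do not contribute to the square envelope -/
theorem pkw_sq_filter (A : PFam k ι) (P : ℝ) (s : Finset ι) (b : ι → ℝ) (z : ST k) :
    A.sq P (s.filter fun T => b T ≠ 0) b z = A.sq P s b z := by
  unfold PFam.sq
  refine Finset.sum_filter_of_ne fun T _ hT hb => hT ?_
  rw [hb]
  simp

open scoped Classical in
/-- packets of amplitude `0` vanish.  (`decay` with `a T = 0` gives `A.F T X = 0`.) -/
theorem pkw_fld_filter {A : PFam k ι} {s : Finset ι} {K : PCls} {a b : ι → ℝ} (h : A.In s K a) (hb : ∀ T ∈ s, b T = 0 → a T = 0) (z : ST k) :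
    A.fld (s.filter fun T => b T ≠ 0) z = A.fld s z := by
  unfold PFam.fld
  refine Finset.sum_filter_of_ne fun T hT hne hb0 => hne ?_
  have ha := hb T hT hb0
  have h0 : A.F T (natX A.N (A.v T) z) = 0 := by
    have := h.decay T hT (natX A.N (A.v T) z)
    rw [ha, zero_mul] at this
    exact norm_le_zero_iff.1 this
  unfold PFam.pk
  rw [h0, mul_zero]

open scoped Classical in
/-- (`a T = 0` and `p > 0` give `a T ^ p = 0`.) -/
theorem pkw_bud_filter (A : PFam k ι) {p : ℝ} (hp : 0 < p) (s : Finset ι) {a b : ι → ℝ} (hb : ∀ T ∈ s, b T = 0 → a T = 0) :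
    A.bud p (s.filter fun T => b T ≠ 0) a b = A.bud p s a b := by
  unfold PFam.bud
  congr 1
  refine Finset.sum_filter_of_ne fun T hT hne hb0 => hne ?_
  rw [hb T hT hb0, Real.zero_rpow hp.ne', zero_mul]

/-- the right side.  (`ENNReal.ofReal_rpow_of_nonneg`, `ENNReal.ofReal_rpow_of_pos`, `(b²)^(1-p/2) = b^(2-p)` (`Real.rpow_natCast`, `Real.rpow_mul`), `finrank_euclideanSpace`, `Real.rpow_add`, `ENNReal.ofReal_sum_of_nonneg`.) -/
theorem pkw_bud_R (A : PFam k ι) (hN : 0 < A.N) {p : ℝ} (hp : 0 ≤ p) (s : Finset ι) {a b : ι → ℝ} (ha : ∀ T ∈ s, 0 ≤ a T) (hb : ∀ T ∈ s, 0 < b T) :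
    ENNReal.ofReal (A.N ^ (Module.finrank ℝ (E k) + 2)) * ∑ T ∈ s, ENNReal.ofReal (a T) ^ p * ENNReal.ofReal (b T ^ 2) ^ (1 - p / 2)
      = ENNReal.ofReal (A.bud p s a b) := by
  unfold PFam.bud
  have hnn : ∀ T ∈ s, 0 ≤ a T ^ p * b T ^ (2 - p) := fun T hT =>
    mul_nonneg (Real.rpow_nonneg (ha T hT) _) (Real.rpow_nonneg (hb T hT).le _)
  rw [ENNReal.ofReal_mul (by positivity), ENNReal.ofReal_sum_of_nonneg hnn]
  congr 1
  · congr 1
    rw [finrank_euclideanSpace, Fintype.card_fin, ← Real.rpow_natCast]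
    push_cast
    rfl
  · refine Finset.sum_congr rfl fun T hT => ?_
    rw [ENNReal.ofReal_mul (Real.rpow_nonneg (ha T hT) _), ENNReal.ofReal_rpow_of_nonneg (ha T hT) hp,
      ENNReal.ofReal_rpow_of_pos (pow_pos (hb T hT) 2)]
    congr 2
    rw [← Real.rpow_natCast, ← Real.rpow_mul (hb T hT).le]
    congr 1
    push_cast
    ring

/-- Stores the on-demand equation lemmas of the definitions above in THIS module (rule 6 hygiene). -/
theorem pkw_outB_forced : True := by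
  have := @pkwR.eq_1
  have := @PFam.Near.eq_1
  have := @pkwRe.eq_1
  trivial

end

end Claimed.Agent.R257
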